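import Vale.Agent.P105.Dig.Zeros
import Vale.Agent.P105.H892.GEntropy
import Vale.Agent.P105.H5.GGibbs
import Vale.Agent.P105.H897.Count

/-!
# The entropy of partial sums with integer digits and a quartic Salem base
-/

open MeasureTheory Real Filter Topology Polynomial
open scoped ENNReal

namespace Vale.Agent.P105.Dig

open Vale.Agent.P105.Salem

theorem threshold (A : ℝ) {B : ℝ} (hB : 0 < B) :
    ∃ η : ℝ, 0 < η ∧ ∀ ρ : ℝ, 0 < ρ → ρ ≤ η → A + 4 * -log ρ < B / ρ := by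
  have h1 : ∀ᶠ x : ℝ in atTop, |log x| ≤ B / 8 * |x| := by
    have := Real.isLittleO_log_id_atTop.bound (show (0 : ℝ) < B / 8 by positivity)
    simpa using this
  have h2 : ∀ᶠ x : ℝ in atTop, 2 * |A| / B + 1 ≤ x := eventually_ge_atTop _
  obtain ⟨X, hX⟩ := eventually_atTop.1 (h1.and (h2.and (eventually_ge_atTop (1 : ℝ))))
  refine ⟨1 / max X 1, by positivity, fun ρ hρ hρη => ?_⟩
  have hx : max X 1 ≤ 1 / ρ := by
    rw [le_div_iff₀ hρ]
    rw [le_div_iff₀ (by positivity)] at hρη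
    linarith only [hρη]
  obtain ⟨h3, h4, h5⟩ := hX (1 / ρ) ((le_max_left _ _).trans hx)
  have h6 : log (1 / ρ) = -log ρ := by rw [one_div, log_inv]
  have h7 : 0 < 1 / ρ := by positivity
  rw [h6, abs_of_pos h7] at h3
  have h8 := le_abs_self (-log ρ)
  have h9 : B / ρ = B * (1 / ρ) := by ring
  rw [h9]
  have h10 : 2 * |A| / B * B = 2 * |A| := by field_simp
  have h11 : (2 * |A| / B + 1) * B ≤ 1 / ρ * B := mul_le_mul_of_nonneg_right h4 hB.le
  have h12 := le_abs_self A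
  nlinarith only [h3, h8, h10, h11, h12, hB, h7]

/-- The product of the absolute values of the characteristic function is bounded below. -/
theorem prod_lower {P : Measure ℤ} [IsProbabilityMeasure P] {H : ℝ}
    (hH : ∀ᵐ a : ℤ ∂P, |(a : ℝ)| ≤ H) (hH0 : 0 ≤ H) {b u c A ρ : ℝ} (hb : 1 < b) (hc : 0 < c)
    (hcu : ∀ m : ℤ, c ≤ ‖ch P (b ^ m * u)‖) (hsq : Sq b u A ρ) {j : ℕ}
    (hj : (j : ℝ) * ρ ^ 2 ≤ 1) (n : ℕ) :
    exp (-(8 * π ^ 2 * H ^ 2 / c ^ 2 * A) / 2) ≤
      ‖∏ i ∈ Finset.range n, ch P ((b ^ j * u) * b⁻¹ ^ i)‖ := by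
  have hb0 : b ≠ 0 := by positivity
  have e : ∀ i : ℕ, (b ^ j * u) * b⁻¹ ^ i = b ^ ((j : ℤ) - i) * u := by
    intro i
    rw [zpow_sub₀ hb0, zpow_natCast, zpow_natCast, inv_pow]
    field_simp
  have h1 : ∑ m ∈ down j n, dn (b ^ m * u) ^ 2 ≤ A := by
    refine hsq _ fun m hm => ?_
    have h1 : (m : ℝ) ≤ j := by exact_mod_cast mem_down hm
    have h2 : 0 ≤ ρ ^ 2 := sq_nonneg ρ
    exact (mul_le_mul_of_nonneg_right h1 h2).trans hj
  rw [sum_down] at h1
  have h2 : exp (-(8 * π ^ 2 * H ^ 2 / c ^ 2 * A)) ≤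
      ∏ i ∈ Finset.range n, ‖ch P ((b ^ j * u) * b⁻¹ ^ i)‖ ^ 2 := by
    have h3 : ∏ i ∈ Finset.range n, exp (-(8 * π ^ 2 * H ^ 2 / c ^ 2 *
        dn (b ^ ((j : ℤ) - i) * u) ^ 2)) ≤
        ∏ i ∈ Finset.range n, ‖ch P ((b ^ j * u) * b⁻¹ ^ i)‖ ^ 2 := by
      refine Finset.prod_le_prod (fun _ _ => (exp_pos _).le) fun i _ => ?_
      rw [e]
      exact ch_lower hH hH0 hc (hcu _)
    refine le_trans ?_ h3
    rw [← exp_sum, exp_le_exp, Finset.sum_neg_distrib, neg_le_neg_iff, ← Finset.mul_sum]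
    exact mul_le_mul_of_nonneg_left h1 (by positivity)
  rw [norm_prod]
  refine le_of_pow_le_pow_left₀ (n := 2) (by norm_num)
    (Finset.prod_nonneg fun _ _ => norm_nonneg _) ?_
  rw [← Finset.prod_pow, ← exp_nat_mul]
  refine le_trans (le_of_eq ?_) h2
  congr 1
  push_cast
  ring

section Digits

open Vale.Agent.P105.H5.G

variable {ι : Type*} [Fintype ι] [MeasurableSpace ι] [MeasurableSingletonClass ι]
  (P : Measure ι) [IsProbabilityMeasure P] (d : ι → ℤ)

theorem ch_map (x : ℝ) : ch (P.map d) x = ∑ i : ι, (P.real {i} : ℂ) * e1 (x * d i) := by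
  unfold ch
  rw [integral_map (measurable_of_finite d).aemeasurable
    (measurable_of_countable _).aestronglyMeasurable,
    integral_fintype (hf := Integrable.of_finite)]
  exact Finset.sum_congr rfl fun i _ => Complex.real_smul

/-- The characteristic function of a partial sum. -/
theorem sum_wt_e1 (lam y : ℝ) (n : ℕ) :
    ∑ e : Fin n → ι, (wt P n e : ℂ) * e1 (y * gsum (fun i => (d i : ℝ)) lam n e) =
      ∏ i ∈ Finset.range n, ch (P.map d) (y * lam ^ i) := by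
  classical
  have h := Finset.prod_univ_sum (fun _ : Fin n => (Finset.univ : Finset ι))
    (fun i a => (P.real {a} : ℂ) * e1 ((y * lam ^ (i : ℕ)) * d a))
  rw [Fintype.piFinset_univ] at h
  rw [← Fin.prod_univ_eq_prod_range (fun i => ch (P.map d) (y * lam ^ i)) n]
  simp_rw [ch_map]
  rw [h]
  refine Finset.sum_congr rfl fun e _ => ?_
  rw [Finset.prod_mul_distrib]
  have h1 : (wt P n e : ℂ) = ∏ i, (P.real {e i} : ℂ) := by
    unfold wt
    push_cast
    rfl
  have h2 : ∀ s : Finset (Fin n), e1 (∑ i ∈ s, (y * lam ^ (i : ℕ)) * (d (e i) : ℝ)) =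
      ∏ i ∈ s, e1 ((y * lam ^ (i : ℕ)) * d (e i)) := by
    intro s
    induction s using Finset.induction_on with
    | empty => simp [e1_zero]
    | insert a s ha ih => rw [Finset.sum_insert ha, Finset.prod_insert ha, e1_add, ih]
  rw [h1, ← h2]
  congr 2
  unfold gsum
  rw [Finset.mul_sum]
  exact Finset.sum_congr rfl fun i _ => by ring

/-- The mean of the shifted cosine is the modulus of the characteristic function. -/
theorem exists_phase (lam y : ℝ) (n : ℕ) : ∃ φ : ℝ,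
    ∑ e : Fin n → ι, wt P n e * cos (2 * π * y * gsum (fun i => (d i : ℝ)) lam n e + φ) =
      ‖∏ i ∈ Finset.range n, ch (P.map d) (y * lam ^ i)‖ := by
  obtain ⟨z, hz⟩ : ∃ z : ℂ, z = ∏ i ∈ Finset.range n, ch (P.map d) (y * lam ^ i) := ⟨_, rfl⟩
  obtain ⟨t, ht⟩ : ∃ t : ℝ, z * Complex.exp ((t : ℂ) * Complex.I) = (‖z‖ : ℂ) := by
    refine ⟨-z.arg, ?_⟩
    conv_lhs => rw [← Complex.norm_mul_exp_arg_mul_I z]
    rw [mul_assoc, ← Complex.exp_add]
    have : ((z.arg : ℂ) * Complex.I) + ((-z.arg : ℝ) : ℂ) * Complex.I = 0 := by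
      push_cast
      ring
    rw [Complex.norm_mul_exp_arg_mul_I, this, Complex.exp_zero, mul_one]
  refine ⟨t, ?_⟩
  have h2 : (z * Complex.exp ((t : ℂ) * Complex.I)).re = ‖z‖ := by
    rw [ht, Complex.ofReal_re]
  rw [← hz, ← h2, hz, ← sum_wt_e1 P d lam y n, Finset.sum_mul, Complex.re_sum]
  refine Finset.sum_congr rfl fun e _ => ?_
  have h3 : (wt P n e : ℂ) * e1 (y * gsum (fun i => (d i : ℝ)) lam n e) *
      Complex.exp ((t : ℂ) * Complex.I) =
      (wt P n e : ℂ) * Complex.exp (((2 * π * y * gsum (fun i => (d i : ℝ)) lam n e + t : ℝ) :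
        ℂ) * Complex.I) := by
    unfold e1
    rw [mul_assoc, ← Complex.exp_add]
    congr 2
    push_cast
    ring
  rw [h3, Complex.re_ofReal_mul, Complex.exp_ofReal_mul_I_re]

/-- The value of a partial sum is bounded. -/
theorem abs_gsum_le {N : ℕ} (hN : ∀ i, |d i| ≤ N) {lam : ℝ} (h0 : 0 < lam) (h1 : lam < 1) (n : ℕ)
    (e : Fin n → ι) : |gsum (fun i => (d i : ℝ)) lam n e| ≤ N * (1 - lam)⁻¹ := by
  unfold gsum
  refine (Finset.abs_sum_le_sum_abs _ _).trans ?_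
  have h2 : ∀ i ∈ (Finset.univ : Finset (Fin n)), |(d (e i) : ℝ) * lam ^ (i : ℕ)| ≤
      N * lam ^ (i : ℕ) := by
    intro i _
    rw [abs_mul, abs_of_nonneg (pow_nonneg h0.le _)]
    refine mul_le_mul_of_nonneg_right ?_ (pow_nonneg h0.le _)
    exact_mod_cast hN (e i)
  refine (Finset.sum_le_sum h2).trans ?_
  rw [← Finset.mul_sum]
  refine mul_le_mul_of_nonneg_left ?_ (Nat.cast_nonneg N)
  rw [Fin.sum_univ_eq_sum_range (fun i => lam ^ i) n, ← tsum_geometric_of_lt_one h0.le h1]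
  exact (summable_geometric_of_lt_one h0.le h1).sum_le_tsum _ fun _ _ => by positivity

/-- **The entropy of some partial sum is small**, for all integer digits. -/
theorem exists_gent_lt {b : ℝ} (hb : 1 < b) {ζ : ℂ} (hζ : ‖ζ‖ = 1) (hi : IsIntegral ℤ b)
    (hi' : IsIntegral ℤ b⁻¹)
    (hT : ∀ n : ℤ, ∃ k : ℤ, b ^ n + b ^ (-n) + 2 * (ζ ^ n).re = k) {p : ℤ[X]} (hp : p.Monic)
    (hp1 : aeval b p = 0) (hp2 : aeval b⁻¹ p = 0) (hp3 : aeval ζ p = 0) :
    ∃ n : ℕ, 1 ≤ n ∧ gent P (fun i => (d i : ℝ)) b⁻¹ n < n * log b := by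
  classical
  have hb0 : 0 < b := by linarith only [hb]
  have hbi0 : 0 < b⁻¹ := by positivity
  have hbi1 : b⁻¹ < 1 := inv_lt_one_of_one_lt₀ hb
  -- the digits
  obtain ⟨N, hN⟩ : ∃ N : ℕ, ∀ i, |d i| ≤ N := by
    refine ⟨∑ i, (d i).natAbs, fun i => ?_⟩
    rw [Int.abs_eq_natAbs]
    exact_mod_cast Finset.single_le_sum (f := fun i => (d i).natAbs) (fun _ _ => Nat.zero_le _)
      (Finset.mem_univ i)
  have hdm : Measurable d := measurable_of_finite d
  have hprob : IsProbabilityMeasure (P.map d) := Measure.isProbabilityMeasure_map hdm.aemeasurable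
  have hae : ∀ᵐ a : ℤ ∂(P.map d), |a| ≤ N := by
    rw [ae_map_iff hdm.aemeasurable (MeasurableSet.of_discrete)]
    exact Eventually.of_forall hN
  have hae' : ∀ᵐ a : ℤ ∂(P.map d), |(a : ℝ)| ≤ (N : ℝ) := by
    filter_upwards [hae] with a ha
    exact_mod_cast ha
  have hN0 : (0 : ℝ) ≤ N := Nat.cast_nonneg N
  -- the profile
  set L : ℝ := max 2 (2 * π * N) with hL
  have hψ : Prof L (fun x => ‖ch (P.map d) x‖) := by
    refine ⟨fun k x => norm_ch_int_sub k x, fun x y => ?_, ?_, le_max_left _ _⟩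
    · have h1 := ch_lip hae' x y
      have h2 : 2 * π * N * |x - y| ≤ L * |x - y| :=
        mul_le_mul_of_nonneg_right (le_max_right _ _) (abs_nonneg _)
      linarith only [h1, h2]
    · simp only [ch_zero, norm_one]
  obtain ⟨Q, hQ⟩ := exists_q_ch hi hae
  have hbm : b ∈ Algebra.adjoin ℤ {b} := Algebra.self_mem_adjoin_singleton ℤ b
  have hbim := inv_mem_adjoin hb hi'
  obtain ⟨c, u₀, hc, hu₀, hst⟩ := exists_states' hb hζ hT hψ (q := max Q 1) (le_max_right _ _)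
    (fun j g _ => by
      refine ⟨norm_pos_iff.2 (hQ _ (le_max_left _ _) _ ?_),
        norm_pos_iff.2 (hQ _ (le_max_left _ _) _ ?_)⟩
      · exact mul_mem (zpow_mem_adjoin hb hi' j) (sub_mem (pow_mem hbm _) (one_mem _))
      · exact mul_mem (zpow_mem_adjoin hb hi' j) (sub_mem (pow_mem hbim _) (one_mem _)))
  -- the constants
  obtain ⟨C, hC, hcount⟩ := H897.lattice_count hb hζ hT hp hp1 hp2 hp3 N
  set L' : ℝ := N * (1 - b⁻¹)⁻¹ with hL'
  have hL'0 : 0 ≤ L' := by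
    have : 0 < 1 - b⁻¹ := by linarith only [hbi1]
    positivity
  obtain ⟨g, hg⟩ := pow_unbounded_of_one_lt (4 : ℝ) hb
  have hg1 : 1 ≤ g := by
    by_contra h0
    have h1 : g = 0 := by omega
    rw [h1, pow_zero] at hg
    norm_num at hg
  have hg0 : (0 : ℝ) < g := by exact_mod_cast hg1
  set C₂ : ℝ := 8 * π ^ 2 * N ^ 2 / c ^ 2 with hC₂
  have hC₂0 : 0 ≤ C₂ := by positivity
  set K₀ : ℝ := log C + 2 * log 4 + 5 + (L' + 1 + 20 + 20 / u₀) with hK₀
  obtain ⟨η, hη0, hη⟩ := threshold K₀ (B := 1 / (160 * g)) (by positivity)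
  obtain ⟨u, s, w, D, ρ, A, hadm, hD, hu₀u, huD, hs, hw, hρ0, hρη, hbD, hcu, hI, hDρ, hsq, hA⟩ :=
    hst (2 * C₂) (min η (min (1 / 2) (1 / (2 * g)))) (by positivity)
      (lt_min hη0 (lt_min (by norm_num) (by positivity)))
  have hρ1 : ρ ≤ η := hρη.trans (min_le_left _ _)
  have hρ2 : ρ ≤ 1 / 2 := hρη.trans ((min_le_right _ _).trans (min_le_left _ _))
  have hρ3 : ρ ≤ 1 / (2 * g) := hρη.trans ((min_le_right _ _).trans (min_le_right _ _))
  have hA0 : 0 ≤ A := by simpa using hsq ∅ (by simp)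
  set a : ℝ := exp (-(C₂ * A) / 2) with ha
  have ha0 : 0 < a := exp_pos _
  have ha1 : a ≤ 1 := by
    rw [ha, exp_le_one_iff]
    have : 0 ≤ C₂ * A := by positivity
    linarith only [this]
  have haρ : ρ ≤ a ^ 2 := by
    rw [ha, ← exp_nat_mul, ← Real.log_le_iff_le_exp hρ0]
    push_cast
    have h1 : 0 ≤ C₂ * A := by positivity
    have h2 : 0 ≤ -log ρ := by
      have := Real.log_nonpos hρ0.le (by linarith only [hρ2])
      linarith only [this]
    linarith only [hA, h1]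
  set J : ℕ := ⌊(ρ ^ 2)⁻¹ / g⌋₊ with hJ
  set n : ℕ := D + g * J + 1 with hn
  have hρ20 : 0 < ρ ^ 2 := by positivity
  have hJ1 : (J : ℝ) ≤ (ρ ^ 2)⁻¹ / g := Nat.floor_le (by positivity)
  have hJ2 : (ρ ^ 2)⁻¹ / g < J + 1 := Nat.lt_floor_add_one _
  have hgJ : (g : ℝ) * J ≤ (ρ ^ 2)⁻¹ := by
    rw [le_div_iff₀ hg0] at hJ1
    linarith only [hJ1]
  have hgJρ : (g : ℝ) * J * ρ ^ 2 ≤ 1 := by
    have := mul_le_mul_of_nonneg_right hgJ hρ20.le
    rwa [inv_mul_cancel₀ hρ20.ne'] at this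
  refine ⟨n, by omega, ?_⟩
  -- the phases
  choose φ hφ using fun j : ℕ => exists_phase P d b⁻¹ (b ^ (g * j) * u) n
  have hmain := H892.gentropy_state P (fun i => (d i : ℝ)) (b := b) (u := u) (a := a) (u₀ := u₀)
    (C := C) (L := L') (θ := 2 * π) (D := D) (g := g) (n := n) (J := J) hb hC hL'0
    (by linarith only [pi_gt_three]) (by linarith only [pi_le_four]) ?_ ?_
    (fun F => gibbs P (fun i => (d i : ℝ)) b⁻¹ n F) hg.le hu₀ hu₀u huD ha0 ha1 (φ := φ) ?_ le_rfl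
  · -- the final inequality
    have hn1 : (n : ℝ) ≤ 4 * (ρ ^ 2)⁻¹ := by
      have h1 : (n : ℝ) = D + g * J + 1 := by
        rw [hn]
        push_cast
        ring
      have h2 : (1 : ℝ) ≤ (ρ ^ 2)⁻¹ := by
        rw [one_le_inv₀ hρ20]
        exact pow_le_one₀ hρ0.le (by linarith only [hρ2])
      have h3 : (D : ℝ) ≤ 2 * (ρ ^ 2)⁻¹ := by
        have h4 : (D : ℝ) * ρ ^ 2 ≤ 2 := by
          have h5 : (D : ℝ) * ρ ^ 2 = (D * ρ) * ρ := by ring
          rw [h5]
          have h6 : (D : ℝ) * ρ * ρ ≤ 2 * 1 :=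
            mul_le_mul hDρ (by linarith only [hρ2]) hρ0.le (by norm_num)
          linarith only [h6]
        rw [← div_eq_mul_inv, le_div_iff₀ hρ20]
        exact h4
      rw [h1]
      linarith only [h2, h3, hgJ]
    have hn0 : (0 : ℝ) < n := by
      have : 0 < n := by omega
      exact_mod_cast this
    have hlogn : log n ≤ log 4 + 2 * -log ρ := by
      have h1 := log_le_log hn0 hn1
      rw [log_mul (by norm_num) (by positivity), log_inv, log_pow] at h1
      push_cast at h1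
      linarith only [h1]
    have hJ3 : (ρ ^ 2)⁻¹ / (2 * g) ≤ J := by
      have h1 : 1 ≤ (ρ ^ 2)⁻¹ / (2 * g) := by
        rw [le_div_iff₀ (by positivity), one_mul, ← one_div, le_div_iff₀ hρ20]
        have h2 : ρ * (2 * g) ≤ 1 := by
          rwa [le_div_iff₀ (by positivity)] at hρ3
        calc 2 * (g : ℝ) * ρ ^ 2 = (ρ * (2 * g)) * ρ := by ring
          _ ≤ 1 * 1 := mul_le_mul h2 (by linarith only [hρ2]) hρ0.le (by norm_num)
          _ = 1 := one_mul _
      have h2 : (ρ ^ 2)⁻¹ / g = 2 * ((ρ ^ 2)⁻¹ / (2 * g)) := by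
        field_simp
      rw [h2] at hJ2
      linarith only [h1, hJ2]
    have hgain : 1 / (160 * g) / ρ ≤ a ^ 2 * J / 80 := by
      have h1 : ρ * ((ρ ^ 2)⁻¹ / (2 * g)) ≤ a ^ 2 * J :=
        mul_le_mul haρ hJ3 (by positivity) (by positivity)
      have h2 : ρ * ((ρ ^ 2)⁻¹ / (2 * g)) = 1 / (2 * g) / ρ := by
        field_simp
      rw [h2] at h1
      have h3 : 1 / (160 * (g : ℝ)) / ρ = (1 / (2 * g) / ρ) / 80 := by
        field_simp
        norm_num
      rw [h3]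
      linarith only [h1]
    have hthr := hη ρ hρ0 hρ1
    rw [hK₀] at hthr
    linarith only [hmain, hlogn, hgain, hthr]
  · intro y hy
    unfold vals at hy
    rw [Finset.mem_image] at hy
    obtain ⟨e, -, rfl⟩ := hy
    exact abs_gsum_le d hN hbi0 hbi1 n e
  · intro x
    refine hcount n (by omega) x _ fun y hy => ?_
    rw [Finset.mem_filter] at hy
    refine ⟨hy.2.1, hy.2.2, ?_⟩
    have hy1 := hy.1
    unfold vals at hy1
    rw [Finset.mem_image] at hy1
    obtain ⟨e, -, rfl⟩ := hy1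
    refine ⟨fun i => if h : i < n then d (e ⟨i, h⟩) else 0, fun i => ?_, ?_⟩
    · show |if h : i < n then d (e ⟨i, h⟩) else 0| ≤ (N : ℤ)
      split_ifs
      · exact hN _
      · simp
    · unfold gsum
      rw [← Fin.sum_univ_eq_sum_range (fun i => ((if h : i < n then d (e ⟨i, h⟩) else 0 : ℤ) : ℝ) *
        b⁻¹ ^ i) n]
      refine Finset.sum_congr rfl fun i _ => ?_
      rw [dif_pos i.2]
  · intro j hj
    have h1 := hφ j
    have h2 : a ≤ ‖∏ i ∈ Finset.range n, ch (P.map d) (b ^ (g * j) * u * b⁻¹ ^ i)‖ := by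
      rw [ha]
      refine prod_lower hae' hN0 hb hc hcu hsq ?_ n
      have h3 : (j : ℝ) ≤ J := by exact_mod_cast hj.le
      have h4 : ((g * j : ℕ) : ℝ) ≤ g * J := by
        push_cast
        exact mul_le_mul_of_nonneg_left h3 hg0.le
      exact (mul_le_mul_of_nonneg_right h4 hρ20.le).trans hgJρ
    rw [← h1] at h2
    refine h2.trans (le_of_eq ?_)
    refine Finset.sum_congr rfl fun e _ => ?_
    congr 3

end Digits

end Vale.Agent.P105.Dig
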