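import Mathlib

/-!
# Characteristic functions of integer valued laws
-/

open MeasureTheory Real Filter Topology
open scoped ENNReal

namespace Vale.Agent.P105.Dig

/-- The distance to the nearest integer. -/
noncomputable def dn (x : ℝ) : ℝ := |x - round x|

theorem dn_nonneg (x : ℝ) : 0 ≤ dn x := abs_nonneg _

theorem dn_le_int (x : ℝ) (k : ℤ) : dn x ≤ |x - k| := round_le x k

theorem dn_le_abs (x : ℝ) : dn x ≤ |x| := by simpa using dn_le_int x 0

theorem dn_le_half (x : ℝ) : dn x ≤ 1 / 2 := abs_sub_round x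

theorem dn_int_sub_le (k : ℤ) (x : ℝ) : dn (k - x) ≤ dn x := by
  have h := dn_le_int (k - x) (k - round x)
  refine h.trans (le_of_eq ?_)
  unfold dn
  rw [← abs_neg]
  congr 1
  push_cast
  ring

theorem dn_int_sub (k : ℤ) (x : ℝ) : dn (k - x) = dn x := by
  refine le_antisymm (dn_int_sub_le k x) ?_
  have h := dn_int_sub_le k (k - x)
  rwa [sub_sub_cancel] at h

theorem dn_neg (x : ℝ) : dn (-x) = dn x := by
  simpa using dn_int_sub 0 x

theorem dn_add (x y : ℝ) : dn (x + y) ≤ dn x + dn y := by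
  have h := dn_le_int (x + y) (round x + round y)
  refine h.trans ?_
  unfold dn
  refine le_trans (le_of_eq ?_) (abs_add_le _ _)
  congr 1
  push_cast
  ring

theorem dn_sub (x y : ℝ) : dn (x - y) ≤ dn x + dn y := by
  have h := dn_add x (-y)
  rwa [dn_neg, ← sub_eq_add_neg] at h

/-- `exp (2 π i t)`. -/
noncomputable def e1 (t : ℝ) : ℂ := Complex.exp (((2 * π * t : ℝ) : ℂ) * Complex.I)

theorem e1_add (s t : ℝ) : e1 (s + t) = e1 s * e1 t := by
  unfold e1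
  rw [← Complex.exp_add]
  congr 1
  push_cast
  ring

theorem norm_e1 (t : ℝ) : ‖e1 t‖ = 1 := Complex.norm_exp_ofReal_mul_I _

theorem e1_zero : e1 0 = 1 := by simp [e1]

theorem e1_int (k : ℤ) : e1 k = 1 := by
  unfold e1
  rw [Complex.exp_eq_one_iff]
  exact ⟨k, by push_cast; ring⟩

theorem conj_e1 (t : ℝ) : (starRingEnd ℂ) (e1 t) = e1 (-t) := by
  unfold e1
  rw [← Complex.exp_conj, map_mul, Complex.conj_I, Complex.conj_ofReal]
  congr 1
  push_cast
  ring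

theorem norm_e1_sub_one (t : ℝ) : ‖e1 t - 1‖ ≤ 2 * π * |t| := by
  have h := Real.norm_exp_I_mul_ofReal_sub_one_le (x := 2 * π * t)
  unfold e1
  rw [mul_comm] at h
  refine h.trans (le_of_eq ?_)
  rw [Real.norm_eq_abs, abs_mul, abs_of_pos (by positivity : (0 : ℝ) < 2 * π)]

theorem norm_e1_mul_sub_one (x : ℝ) (a : ℤ) : ‖e1 (x * a) - 1‖ ≤ 2 * π * |(a : ℝ)| * dn x := by
  have h1 : e1 (x * a) = e1 ((x - round x) * a) := by
    have h2 : x * a = (x - round x) * a + ((round x * a : ℤ) : ℝ) := by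
      push_cast
      ring
    rw [h2, e1_add, e1_int, mul_one]
  rw [h1]
  refine (norm_e1_sub_one _).trans (le_of_eq ?_)
  rw [abs_mul]
  unfold dn
  ring

theorem continuous_e1 : Continuous e1 := by
  unfold e1
  fun_prop

/-- The characteristic function (at `2 π x`) of a law on the integers. -/
noncomputable def ch (P : Measure ℤ) (x : ℝ) : ℂ := ∫ a : ℤ, e1 (x * a) ∂P

section Law

variable {P : Measure ℤ} [IsProbabilityMeasure P] {H : ℝ}

theorem integrable_e1 (x : ℝ) : Integrable (fun a : ℤ => e1 (x * a)) P :=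
  Integrable.of_bound (measurable_of_countable _).aestronglyMeasurable 1
    (Eventually.of_forall fun a => (norm_e1 _).le)

theorem integrable_e1_sub (x : ℝ) : Integrable (fun a : ℤ => e1 (x * a) - 1) P :=
  (integrable_e1 x).sub (integrable_const _)

theorem ch_eq (x : ℝ) : ch P x = 1 + ∫ a : ℤ, (e1 (x * a) - 1) ∂P := by
  rw [integral_sub (integrable_e1 x) (integrable_const _)]
  simp [ch]

theorem norm_ch_le (x : ℝ) : ‖ch P x‖ ≤ 1 := by
  unfold ch
  refine (norm_integral_le_integral_norm _).trans ?_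
  simp [norm_e1]

theorem ch_zero : ch P 0 = 1 := by
  simp [ch, e1_zero]

theorem ch_add_int (x : ℝ) (k : ℤ) : ch P (x + k) = ch P x := by
  unfold ch
  refine integral_congr_ae (Eventually.of_forall fun a => ?_)
  simp only
  have : (x + k) * a = x * a + ((k * a : ℤ) : ℝ) := by
    push_cast
    ring
  rw [this, e1_add, e1_int, mul_one]

theorem ch_neg (x : ℝ) : ch P (-x) = (starRingEnd ℂ) (ch P x) := by
  unfold ch
  rw [← integral_conj]
  refine integral_congr_ae (Eventually.of_forall fun a => ?_)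
  simp only
  rw [conj_e1, neg_mul]

theorem norm_ch_neg (x : ℝ) : ‖ch P (-x)‖ = ‖ch P x‖ := by
  rw [ch_neg, RCLike.norm_conj]

theorem norm_ch_int_sub (k : ℤ) (x : ℝ) : ‖ch P (k - x)‖ = ‖ch P x‖ := by
  rw [sub_eq_neg_add, ch_add_int, norm_ch_neg]

theorem norm_small (hH : ∀ᵐ a : ℤ ∂P, |(a : ℝ)| ≤ H) (x : ℝ) :
    ∀ᵐ a : ℤ ∂P, ‖e1 (x * a) - 1‖ ≤ 2 * π * H * dn x := by
  filter_upwards [hH] with a ha
  refine (norm_e1_mul_sub_one x a).trans ?_
  have := dn_nonneg x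
  gcongr

theorem norm_ch_sub_one (hH : ∀ᵐ a : ℤ ∂P, |(a : ℝ)| ≤ H) (x : ℝ) :
    ‖∫ a : ℤ, (e1 (x * a) - 1) ∂P‖ ≤ 2 * π * H * dn x := by
  have := norm_integral_le_of_norm_le_const (norm_small hH x)
  simpa using this

theorem ch_mul (hH : ∀ᵐ a : ℤ ∂P, |(a : ℝ)| ≤ H) (hH0 : 0 ≤ H) (x y : ℝ) :
    ‖ch P (x + y) - ch P x * ch P y‖ ≤ 8 * π ^ 2 * H ^ 2 * (dn x * dn y) := by
  have e : ch P (x + y) - ch P x * ch P y =
      (∫ a : ℤ, (e1 (x * a) - 1) * (e1 (y * a) - 1) ∂P) -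
        (∫ a : ℤ, (e1 (x * a) - 1) ∂P) * ∫ a : ℤ, (e1 (y * a) - 1) ∂P := by
    have h1 : ∫ a : ℤ, (e1 (x * a) - 1) * (e1 (y * a) - 1) ∂P =
        ch P (x + y) - ch P x - ch P y + 1 := by
      calc ∫ a : ℤ, (e1 (x * a) - 1) * (e1 (y * a) - 1) ∂P =
          ∫ a : ℤ, (((e1 ((x + y) * a) - e1 (x * a)) - e1 (y * a)) + 1) ∂P := by
            refine integral_congr_ae (Eventually.of_forall fun a => ?_)
            simp only
            rw [add_mul, e1_add]
            ring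
        _ = (∫ a : ℤ, ((e1 ((x + y) * a) - e1 (x * a)) - e1 (y * a)) ∂P) + ∫ _a : ℤ, (1 : ℂ) ∂P :=
            integral_add (((integrable_e1 (x + y)).sub (integrable_e1 x)).sub (integrable_e1 y))
              (integrable_const _)
        _ = ((∫ a : ℤ, (e1 ((x + y) * a) - e1 (x * a)) ∂P) - ∫ a : ℤ, e1 (y * a) ∂P) +
            ∫ _a : ℤ, (1 : ℂ) ∂P := by
            congr 1
            exact integral_sub ((integrable_e1 (x + y)).sub (integrable_e1 x)) (integrable_e1 y)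
        _ = ((ch P (x + y) - ch P x) - ch P y) + ∫ _a : ℤ, (1 : ℂ) ∂P := by
            congr 2
            exact integral_sub (integrable_e1 (x + y)) (integrable_e1 x)
        _ = ch P (x + y) - ch P x - ch P y + 1 := by simp
    have h2 : ∀ z : ℝ, ∫ a : ℤ, (e1 (z * a) - 1) ∂P = ch P z - 1 := fun z => by
      rw [ch_eq z]
      ring
    rw [h1, h2, h2]
    ring
  rw [e]
  have h3 : ‖∫ a : ℤ, (e1 (x * a) - 1) * (e1 (y * a) - 1) ∂P‖ ≤
      (2 * π * H * dn x) * (2 * π * H * dn y) := by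
    have h4 : ∀ᵐ a : ℤ ∂P, ‖(e1 (x * a) - 1) * (e1 (y * a) - 1)‖ ≤
        (2 * π * H * dn x) * (2 * π * H * dn y) := by
      filter_upwards [norm_small hH x, norm_small hH y] with a h1 h2
      rw [norm_mul]
      exact mul_le_mul h1 h2 (norm_nonneg _) ((norm_nonneg _).trans h1)
    have := norm_integral_le_of_norm_le_const h4
    simpa using this
  have h5 := norm_ch_sub_one hH x
  have h6 := norm_ch_sub_one hH y
  refine (norm_sub_le _ _).trans ?_
  rw [norm_mul]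
  have h7 : ‖∫ a : ℤ, (e1 (x * a) - 1) ∂P‖ * ‖∫ a : ℤ, (e1 (y * a) - 1) ∂P‖ ≤
      (2 * π * H * dn x) * (2 * π * H * dn y) :=
    mul_le_mul h5 h6 (norm_nonneg _) ((norm_nonneg _).trans h5)
  linarith only [h3, h7]

theorem ch_sq (hH : ∀ᵐ a : ℤ ∂P, |(a : ℝ)| ≤ H) (hH0 : 0 ≤ H) (x : ℝ) :
    1 - 8 * π ^ 2 * H ^ 2 * dn x ^ 2 ≤ ‖ch P x‖ ^ 2 := by
  have h := ch_mul hH hH0 x (-x)
  rw [add_neg_cancel, ch_zero, ch_neg, dn_neg, Complex.mul_conj, Complex.normSq_eq_norm_sq] at h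
  have h2 : ‖(1 : ℂ) - ((‖ch P x‖ ^ 2 : ℝ) : ℂ)‖ = |1 - ‖ch P x‖ ^ 2| := by
    rw [← Complex.ofReal_one, ← Complex.ofReal_sub, Complex.norm_real, Real.norm_eq_abs]
  rw [h2] at h
  have h3 := le_abs_self (1 - ‖ch P x‖ ^ 2)
  have h4 : dn x * dn x = dn x ^ 2 := by ring
  rw [h4] at h
  linarith only [h, h3]

theorem ch_lower (hH : ∀ᵐ a : ℤ ∂P, |(a : ℝ)| ≤ H) (hH0 : 0 ≤ H) {c x : ℝ} (hc : 0 < c)
    (hcx : c ≤ ‖ch P x‖) :
    exp (-(8 * π ^ 2 * H ^ 2 / c ^ 2 * dn x ^ 2)) ≤ ‖ch P x‖ ^ 2 := by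
  have h1 := ch_sq hH hH0 x
  set v := ‖ch P x‖ ^ 2 with hv
  have hcv : c ^ 2 ≤ v := pow_le_pow_left₀ hc.le hcx 2
  have hc2 : 0 < c ^ 2 := by positivity
  have hv0 : 0 < v := lt_of_lt_of_le hc2 hcv
  rw [← Real.le_log_iff_exp_le hv0]
  have h2 : 1 - v⁻¹ ≤ log v := Real.one_sub_inv_le_log_of_pos hv0
  refine le_trans ?_ h2
  set Z := 8 * π ^ 2 * H ^ 2 * dn x ^ 2 with hZ
  have hZ0 : 0 ≤ Z := by positivity
  have h3 : 8 * π ^ 2 * H ^ 2 / c ^ 2 * dn x ^ 2 = Z / c ^ 2 := by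
    rw [hZ]
    ring
  rw [h3]
  have h4 : v⁻¹ - 1 ≤ Z / v := by
    rw [le_div_iff₀ hv0, sub_mul, inv_mul_cancel₀ hv0.ne']
    linarith only [h1]
  have h5 : Z / v ≤ Z / c ^ 2 := div_le_div_of_nonneg_left hZ0 hc2 hcv
  linarith only [h4, h5]

theorem ch_upper (hH : ∀ᵐ a : ℤ ∂P, |(a : ℝ)| ≤ H) (hH0 : 0 ≤ H) {c x y : ℝ} (hc : 0 < c)
    (hcx : c ≤ ‖ch P x‖) (hcy : c ≤ ‖ch P y‖) :
    ‖ch P (x - y)‖ ≤ ‖ch P x‖ * ‖ch P y‖ *
      exp (8 * π ^ 2 * H ^ 2 / c ^ 2 * (dn x * dn y)) := by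
  have h := ch_mul hH hH0 x (-y)
  rw [dn_neg, ← sub_eq_add_neg] at h
  have h1 : ‖ch P (x - y)‖ ≤ ‖ch P x‖ * ‖ch P y‖ + 8 * π ^ 2 * H ^ 2 * (dn x * dn y) := by
    have h2 : ‖ch P (x - y)‖ ≤ ‖ch P (x - y) - ch P x * ch P (-y)‖ + ‖ch P x * ch P (-y)‖ := by
      have := norm_add_le (ch P (x - y) - ch P x * ch P (-y)) (ch P x * ch P (-y))
      rwa [sub_add_cancel] at this
    rw [norm_mul, norm_ch_neg] at h2
    linarith only [h, h2]
  refine h1.trans ?_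
  set W := 8 * π ^ 2 * H ^ 2 * (dn x * dn y) with hW
  have hW0 : 0 ≤ W := by
    have h1 := dn_nonneg x
    have h2 := dn_nonneg y
    positivity
  set S := ‖ch P x‖ * ‖ch P y‖ with hS
  have hcS : c ^ 2 ≤ S := by
    rw [sq]
    exact mul_le_mul hcx hcy hc.le (norm_nonneg _)
  have hc2 : 0 < c ^ 2 := by positivity
  have e2 : 8 * π ^ 2 * H ^ 2 / c ^ 2 * (dn x * dn y) = W / c ^ 2 := by
    rw [hW]
    ring
  rw [e2]
  have h3 : 1 + W / c ^ 2 ≤ exp (W / c ^ 2) := by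
    linarith only [add_one_le_exp (W / c ^ 2)]
  have h4 : W ≤ S * (W / c ^ 2) := by
    calc W = c ^ 2 * (W / c ^ 2) := by field_simp
      _ ≤ S * (W / c ^ 2) := mul_le_mul_of_nonneg_right hcS (by positivity)
  calc S + W ≤ S * (1 + W / c ^ 2) := by linarith only [h4]
    _ ≤ S * exp (W / c ^ 2) := mul_le_mul_of_nonneg_left h3 (hc2.le.trans hcS)

theorem ch_lip (hH : ∀ᵐ a : ℤ ∂P, |(a : ℝ)| ≤ H) (x y : ℝ) :
    ‖ch P x‖ - 2 * π * H * |x - y| ≤ ‖ch P y‖ := by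
  have h1 : ‖ch P x - ch P y‖ ≤ 2 * π * H * |x - y| := by
    unfold ch
    rw [← integral_sub (integrable_e1 x) (integrable_e1 y)]
    have h2 : ∀ᵐ a : ℤ ∂P, ‖e1 (x * a) - e1 (y * a)‖ ≤ 2 * π * H * |x - y| := by
      filter_upwards [hH] with a ha
      have h3 : e1 (x * a) - e1 (y * a) = e1 (y * a) * (e1 ((x - y) * a) - 1) := by
        have : x * a = y * a + (x - y) * a := by ring
        rw [this, e1_add]
        ring
      rw [h3, norm_mul, norm_e1, one_mul]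
      refine (norm_e1_sub_one _).trans ?_
      rw [abs_mul]
      have := mul_le_mul_of_nonneg_left ha (by positivity : 0 ≤ 2 * π * |x - y|)
      linarith only [this]
    have := norm_integral_le_of_norm_le_const h2
    simpa using this
  have h2 := norm_sub_norm_le (ch P x) (ch P y)
  linarith only [h1, h2]

end Law

end Vale.Agent.P105.Dig
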