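import Vale.Agent.P105.Dig.Asm
import Vale.Agent.P105.H897.ZetaPoly

/-!
# Self-similar measures with a quartic Salem contraction ratio have dimension less than one
-/

open MeasureTheory Real Filter Topology
open scoped ENNReal NNReal

namespace Vale.Agent.P105.Dig

open Vale.Agent.P105.Salem Vale.Agent.P105.H5.G

/-- Integer digits, all of positive probability. -/
theorem dim_int {lam : ℝ} (h0 : 0 < lam) (hS : IsSalem lam⁻¹)
    (h4 : (minpoly ℚ lam⁻¹).natDegree = 4) {ι : Type*} [Fintype ι] [MeasurableSpace ι]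
    [MeasurableSingletonClass ι] (P : Measure ι) [IsProbabilityMeasure P]
    (hP : ∀ i, 0 < P.real {i}) (d : ι → ℤ) :
    ∃ A : Set ℝ, MeasurableSet A ∧ gssm P (fun i => (d i : ℝ)) lam A = 1 ∧ dimH A < 1 := by
  have hb := hS.1
  have h1 : lam < 1 := (one_lt_inv₀ h0).1 hb
  obtain ⟨hi', ζ, hζ, hT, p, hp, hp1, hp2, hp3⟩ := H897.exists_zeta_poly hS h4
  obtain ⟨n, hn, hlt⟩ := exists_gent_lt P d hb hζ hS.2.1 hi' hT hp hp1 hp2 hp3
  rw [inv_inv] at hlt
  exact exists_dim_lt_one P _ hP h0 h1 hn (by rwa [one_div])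

/-- The law of the digit sequence does not see digits of probability zero. -/
theorem map_support {ι : Type*} [Fintype ι] [MeasurableSpace ι]
    [MeasurableSingletonClass ι] (P : Measure ι) [IsProbabilityMeasure P] (κ : Set ι)
    (hκ : P κᶜ = 0) (P' : Measure κ) [IsProbabilityMeasure P']
    (hP' : P' = P.comap (Subtype.val : κ → ι)) :
    (Measure.infinitePi (fun _ : ℕ => P')).map (fun x n => (x n : ι)) =
      Measure.infinitePi (fun _ : ℕ => P) := by
  have hκm : MeasurableSet κ := κ.toFinite.measurableSet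
  have hmap : P'.map (Subtype.val : κ → ι) = P := by
    rw [hP', map_comap_subtype_coe hκm]
    refine Measure.restrict_eq_self_of_ae_mem ?_
    rw [ae_iff]
    exact hκ
  have hval : Measurable (Subtype.val : κ → ι) := measurable_subtype_coe
  have hF : Measurable (fun (x : ℕ → κ) (n : ℕ) => (x n : ι)) :=
    measurable_pi_lambda _ fun n => hval.comp (measurable_pi_apply n)
  apply Measure.eq_infinitePi
  intro s t ht
  rw [Measure.map_apply hF (MeasurableSet.pi s.countable_toSet fun i _ => ht i)]
  have e1 : (fun (x : ℕ → κ) (n : ℕ) => (x n : ι)) ⁻¹' (Set.pi s t) =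
      Set.pi s (fun n => (Subtype.val : κ → ι) ⁻¹' (t n)) := by
    ext x
    simp only [Set.mem_preimage, Set.mem_pi]
  rw [e1, Measure.infinitePi_pi _ (fun i _ => hval (ht i))]
  refine Finset.prod_congr rfl fun i _ => ?_
  conv_rhs => rw [← hmap]
  rw [Measure.map_apply hval (ht i)]

/-- Integer digits, an arbitrary law. -/
theorem dim_int' {lam : ℝ} (h0 : 0 < lam) (hS : IsSalem lam⁻¹)
    (h4 : (minpoly ℚ lam⁻¹).natDegree = 4) {ι : Type*} [Fintype ι] [MeasurableSpace ι]
    [MeasurableSingletonClass ι] (P : Measure ι) [IsProbabilityMeasure P] (d : ι → ℤ) :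
    ∃ A : Set ℝ, MeasurableSet A ∧ gssm P (fun i => (d i : ℝ)) lam A = 1 ∧ dimH A < 1 := by
  classical
  set κ : Set ι := {i | 0 < P.real {i}} with hκ
  have hκm : MeasurableSet κ := κ.toFinite.measurableSet
  have hκ0 : P κᶜ = 0 := by
    have h1 : κᶜ = ⋃ i ∈ (κᶜ : Set ι), {i} := (Set.biUnion_of_singleton _).symm
    rw [h1, measure_biUnion_null_iff (Set.toFinite _).countable]
    intro i hi
    have h2 : ¬ 0 < P.real {i} := hi
    have h3 : P.real {i} = 0 := le_antisymm (not_lt.1 h2) measureReal_nonneg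
    rwa [measureReal_eq_zero_iff] at h3
  have hκ1 : P κ = 1 := (prob_compl_eq_zero_iff hκm).1 hκ0
  have hemb : MeasurableEmbedding (Subtype.val : κ → ι) := MeasurableEmbedding.subtype_coe hκm
  set P' : Measure κ := P.comap (Subtype.val : κ → ι) with hP'
  have hprob : IsProbabilityMeasure P' := by
    constructor
    rw [hP', hemb.comap_apply, Set.image_univ, Subtype.range_coe]
    exact hκ1
  have hpos : ∀ i : κ, 0 < P'.real {i} := by
    intro i
    have h1 : P'.real {i} = P.real {(i : ι)} := by
      rw [measureReal_def, measureReal_def, hP', hemb.comap_apply, Set.image_singleton]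
    rw [h1]
    exact i.2
  obtain ⟨A, hA, hA1, hAd⟩ := dim_int h0 hS h4 P' hpos (fun i => d i)
  refine ⟨A, hA, ?_, hAd⟩
  have h1 : lam < 1 := (one_lt_inv₀ h0).1 hS.1
  have hval : Measurable (Subtype.val : κ → ι) := measurable_subtype_coe
  have hF : Measurable (fun (x : ℕ → κ) (n : ℕ) => (x n : ι)) :=
    measurable_pi_lambda _ fun n => hval.comp (measurable_pi_apply n)
  have hser := measurable_ser (fun i : ι => (d i : ℝ)) h0 h1
  have h2 : gssm P (fun i => (d i : ℝ)) lam = gssm P' (fun i : κ => (d i : ℝ)) lam := by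
    unfold gssm
    rw [← map_support P κ hκ0 P' hP']
    exact Measure.map_map hser hF
  rw [h2]
  exact hA1

/-- Digits in an arithmetic progression (in particular, rational digits), an arbitrary law. -/
theorem digits_dim {lam : ℝ} (h0 : 0 < lam) (hS : IsSalem lam⁻¹)
    (h4 : (minpoly ℚ lam⁻¹).natDegree = 4) {ι : Type*} [Fintype ι] [MeasurableSpace ι]
    [MeasurableSingletonClass ι] (P : Measure ι) [IsProbabilityMeasure P] (D : ι → ℝ) (α β : ℝ)
    (d : ι → ℤ) (hD : ∀ i, D i = α + β * d i) :
    ∃ A : Set ℝ, MeasurableSet A ∧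
      (Measure.infinitePi (fun _ : ℕ => P)).map (fun ω => ∑' n : ℕ, D (ω n) * lam ^ n) A = 1 ∧
      dimH A < 1 := by
  have h1 : lam < 1 := (one_lt_inv₀ h0).1 hS.1
  obtain ⟨A, hA, hA1, hAd⟩ := dim_int' h0 hS h4 P d
  set T : ℝ → ℝ := fun x => α * (1 - lam)⁻¹ + β * x with hT
  have hTc : Continuous T := by
    rw [hT]
    fun_prop
  have hser := measurable_ser (fun i : ι => (d i : ℝ)) h0 h1
  have hlaw : (Measure.infinitePi (fun _ : ℕ => P)).map (fun ω => ∑' n : ℕ, D (ω n) * lam ^ n) =
      (gssm P (fun i => (d i : ℝ)) lam).map T := by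
    unfold gssm
    rw [Measure.map_map hTc.measurable (by exact hser)]
    congr 1
    funext ω
    simp only [Function.comp_apply, hT, hD]
    have e1 : ∀ n : ℕ, (α + β * (d (ω n) : ℝ)) * lam ^ n =
        α * lam ^ n + β * ((d (ω n) : ℝ) * lam ^ n) := fun n => by ring
    simp_rw [e1]
    rw [((summable_geometric_of_lt_one h0.le h1).mul_left α).tsum_add
      ((summable_ser (fun i : ι => (d i : ℝ)) h0 h1 ω).mul_left β), tsum_mul_left, tsum_mul_left,
      tsum_geometric_of_lt_one h0.le h1]
  rw [hlaw]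
  rcases eq_or_ne β 0 with hβ | hβ
  · refine ⟨{α * (1 - lam)⁻¹}, measurableSet_singleton _, ?_, by rw [dimH_singleton]; exact one_pos⟩
    rw [Measure.map_apply hTc.measurable (measurableSet_singleton _)]
    have e2 : T ⁻¹' {α * (1 - lam)⁻¹} = Set.univ := by
      ext x
      simp [hT, hβ]
    rw [e2]
    have : IsProbabilityMeasure (gssm P (fun i => (d i : ℝ)) lam) :=
      Measure.isProbabilityMeasure_map (Measurable.aemeasurable (by exact hser))
    exact measure_univ
  · have hinj : Function.Injective T := by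
      intro x y hxy
      simp only [hT, add_right_inj] at hxy
      exact mul_left_cancel₀ hβ hxy
    have hemb : MeasurableEmbedding T := hTc.measurableEmbedding hinj
    refine ⟨T '' A, hemb.measurableSet_image.2 hA, ?_, ?_⟩
    · rw [Measure.map_apply hTc.measurable (hemb.measurableSet_image.2 hA),
        hinj.preimage_image]
      exact hA1
    · have hlip : LipschitzWith ‖β‖₊ T := by
        refine LipschitzWith.of_dist_le_mul fun x y => ?_
        simp only [hT, Real.dist_eq]
        rw [show α * (1 - lam)⁻¹ + β * x - (α * (1 - lam)⁻¹ + β * y) = β * (x - y) by ring, abs_mul]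
        simp
      exact (hlip.dimH_image_le A).trans_lt hAd

theorem volume_zero_of_dimH {A : Set ℝ} (hA : dimH A < 1) : volume A = 0 := by
  rw [← hausdorffMeasure_real]
  have := hausdorffMeasure_of_dimH_lt (s := A) (d := 1) (by simpa using hA)
  simpa using this

/-- A measure carried by a set of dimension less than one is singular. -/
theorem singular_of_dim {μ : Measure ℝ} [IsProbabilityMeasure μ] {A : Set ℝ}
    (hA : MeasurableSet A) (h1 : μ A = 1) (hd : dimH A < 1) : μ ⟂ₘ volume := by
  refine ⟨Aᶜ, hA.compl, ?_, ?_⟩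
  · rw [prob_compl_eq_zero_iff hA]
    exact h1
  · rw [compl_compl]
    exact volume_zero_of_dimH hd

end Vale.Agent.P105.Dig
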