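import Vale.Agent.P105.Dig.Ch
import Vale.Agent.P105.Bdl.B1

/-!
# Good frequencies, general form: steps, sums of squares of distances
-/

open MeasureTheory Real Filter Topology
open scoped ENNReal

namespace Vale.Agent.P105.Dig

open Vale.Agent.P105.Salem

variable {b : ℝ} {ζ : ℂ}

/-- Admissible triples. -/
def Ad (b : ℝ) (ζ : ℂ) (u s : ℝ) (w : ℂ) : Prop :=
  ∀ m : ℤ, ∃ k : ℤ, b ^ m * u + b ^ (-m) * s + 2 * (ζ ^ m * w).re = k

/-- Lipschitz, even and periodic functions equal to one at zero. -/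
structure Prof (L : ℝ) (ψ : ℝ → ℝ) : Prop where
  per : ∀ (k : ℤ) (x : ℝ), ψ (k - x) = ψ x
  lip : ∀ x y : ℝ, ψ x - L * |x - y| ≤ ψ y
  zero : ψ 0 = 1
  two_le : 2 ≤ L

theorem Prof.neg {L : ℝ} {ψ : ℝ → ℝ} (h : Prof L ψ) (x : ℝ) : ψ (-x) = ψ x := by
  simpa using h.per 0 x

theorem Prof.of_add_int {L : ℝ} {ψ : ℝ → ℝ} (h : Prof L ψ) {x y : ℝ}
    (hk : ∃ k : ℤ, x + y = k) : ψ x = ψ y := by
  obtain ⟨k, hk⟩ := hk
  have hx : x = k - y := by linarith only [hk]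
  rw [hx, h.per]

theorem Prof.sub_le {L : ℝ} {ψ : ℝ → ℝ} (h : Prof L ψ) (x y e : ℝ) (he : |x - y| ≤ e) :
    ψ x - L * e ≤ ψ y := by
  have h1 := h.lip x y
  have h2 : L * |x - y| ≤ L * e := mul_le_mul_of_nonneg_left he (by linarith only [h.two_le])
  linarith only [h1, h2]

theorem Ad.step (hb : 1 < b) (hζ : ‖ζ‖ = 1)
    {u s : ℝ} {w : ℂ} (h : Ad b ζ u s w) (g : ℕ) :
    Ad b ζ ((b ^ g - 1) * u) ((b⁻¹ ^ g - 1) * s) ((ζ ^ g - 1) * w) := by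
  have hb0 : b ≠ 0 := by positivity
  have hζ0 : ζ ≠ 0 := by
    intro h0
    rw [h0, norm_zero] at hζ
    norm_num at hζ
  intro m
  obtain ⟨k₁, hk₁⟩ := h (m + g)
  obtain ⟨k₂, hk₂⟩ := h m
  refine ⟨k₁ - k₂, ?_⟩
  push_cast
  rw [← hk₁, ← hk₂]
  have e1 : b ^ (m + (g : ℤ)) = b ^ m * b ^ g := by
    rw [zpow_add₀ hb0, zpow_natCast]
  have e2 : b ^ (-(m + (g : ℤ))) = b ^ (-m) * b⁻¹ ^ g := by
    rw [neg_add, zpow_add₀ hb0, zpow_neg b (g : ℤ), zpow_natCast, inv_pow]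
  have e3 : ζ ^ (m + (g : ℤ)) = ζ ^ m * ζ ^ g := by
    rw [zpow_add₀ hζ0, zpow_natCast]
  rw [e1, e2, e3]
  have e4 : (ζ ^ m * ((ζ ^ g - 1) * w)).re = (ζ ^ m * ζ ^ g * w).re - (ζ ^ m * w).re := by
    rw [← Complex.sub_re]
    congr 1
    ring
  rw [e4]
  ring

/-- The lower bound survives a step. -/
theorem Ad.psi_step (hb : 1 < b) (hζ : ‖ζ‖ = 1) {u s : ℝ} {w : ℂ} (h : Ad b ζ u s w)
    {L : ℝ} {ψ : ℝ → ℝ} (hψ : Prof L ψ)
    {D g : ℕ} {c ρ' : ℝ} (hg : 4 * D ≤ g) (hu0 : 0 < u) (huD : u ≤ b ^ D)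
    (hs : |s| ≤ 1) (hw : ‖(ζ ^ g - 1) * w‖ ≤ ρ')
    (hcu : ∀ m : ℤ, c ≤ ψ (b ^ m * u))
    (hcs : ∀ m : ℤ, c ≤ ψ (b ^ (-m) * s)) :
    (∀ m : ℤ, c - L * ((b ^ D)⁻¹ + 2 * ρ') ≤ ψ (b ^ m * ((b ^ g - 1) * u))) ∧
    (∀ m : ℤ, c - L * ((b ^ D)⁻¹ + 2 * ρ') ≤ ψ (b ^ (-m) * ((b⁻¹ ^ g - 1) * s))) := by
  have hE : 0 < (b ^ D)⁻¹ := by positivity
  have hρ' : 0 ≤ ρ' := (norm_nonneg _).trans hw
  have h' := h.step hb hζ g
  have hr : ∀ m : ℤ, |2 * (ζ ^ m * ((ζ ^ g - 1) * w)).re| ≤ 2 * ρ' :=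
    fun m => abs_re_zeta_le hζ hw m
  have hgZ : (4 * (D : ℤ)) ≤ g := by exact_mod_cast hg
  have hDnn : (0 : ℤ) ≤ D := Int.natCast_nonneg D
  constructor
  · intro m
    rcases le_or_gt m (-(2 * (D : ℤ))) with hm | hm
    · have h1 := abs_zpow_mul_le_inv hb hu0 huD hm
      have h2 : |b ^ (m + (g : ℤ)) * u - b ^ m * ((b ^ g - 1) * u)| ≤ (b ^ D)⁻¹ + 2 * ρ' := by
        rw [step_u_eq hb]
        have : b ^ (m + (g : ℤ)) * u - (b ^ (m + (g : ℤ)) * u - b ^ m * u) = b ^ m * u := by ring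
        rw [this]
        linarith only [hρ', h1]
      have h3 := hψ.sub_le _ _ _ h2
      linarith only [h3, hcu (m + g)]
    · have e1 : ψ (b ^ m * ((b ^ g - 1) * u)) =
          ψ (b ^ (-m) * ((b⁻¹ ^ g - 1) * s) + 2 * (ζ ^ m * ((ζ ^ g - 1) * w)).re) := by
        apply hψ.of_add_int
        obtain ⟨k, hk⟩ := h' m
        exact ⟨k, by rw [← hk]; ring⟩
      rw [e1]
      have h1 : |b ^ (-(m + (g : ℤ))) * s| ≤ (b ^ D)⁻¹ :=
        abs_zpow_neg_mul_le_inv hb hs (by linarith only [hg, hm, hgZ])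
      have h2 : |(-(b ^ (-m) * s)) - (b ^ (-m) * ((b⁻¹ ^ g - 1) * s) +
            2 * (ζ ^ m * ((ζ ^ g - 1) * w)).re)| ≤ (b ^ D)⁻¹ + 2 * ρ' := by
        rw [step_s_eq hb]
        have : (-(b ^ (-m) * s)) - (b ^ (-(m + (g : ℤ))) * s - b ^ (-m) * s +
            2 * (ζ ^ m * ((ζ ^ g - 1) * w)).re) =
            -(b ^ (-(m + (g : ℤ))) * s + 2 * (ζ ^ m * ((ζ ^ g - 1) * w)).re) := by ring
        rw [this, abs_neg]
        exact (abs_add_le _ _).trans (add_le_add h1 (hr m))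
      have h3 := hψ.sub_le _ _ _ h2
      rw [hψ.neg] at h3
      linarith only [h3, hcs m]
  · intro m
    rcases le_or_gt m (-(2 * (D : ℤ))) with hm | hm
    · have e1 : ψ (b ^ (-m) * ((b⁻¹ ^ g - 1) * s)) =
          ψ (b ^ m * ((b ^ g - 1) * u) + 2 * (ζ ^ m * ((ζ ^ g - 1) * w)).re) := by
        apply hψ.of_add_int
        obtain ⟨k, hk⟩ := h' m
        exact ⟨k, by rw [← hk]; ring⟩
      rw [e1]
      have h1 := abs_zpow_mul_le_inv hb hu0 huD hm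
      have h2 : |b ^ (m + (g : ℤ)) * u - (b ^ m * ((b ^ g - 1) * u) +
            2 * (ζ ^ m * ((ζ ^ g - 1) * w)).re)| ≤ (b ^ D)⁻¹ + 2 * ρ' := by
        rw [step_u_eq hb]
        have : b ^ (m + (g : ℤ)) * u - (b ^ (m + (g : ℤ)) * u - b ^ m * u +
            2 * (ζ ^ m * ((ζ ^ g - 1) * w)).re) =
            b ^ m * u + -(2 * (ζ ^ m * ((ζ ^ g - 1) * w)).re) := by ring
        rw [this]
        refine (abs_add_le _ _).trans (add_le_add h1 ?_)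
        rw [abs_neg]
        exact hr m
      have h3 := hψ.sub_le _ _ _ h2
      linarith only [h3, hcu (m + g)]
    · have h1 : |b ^ (-(m + (g : ℤ))) * s| ≤ (b ^ D)⁻¹ :=
        abs_zpow_neg_mul_le_inv hb hs (by linarith only [hg, hm, hgZ])
      have h2 : |(-(b ^ (-m) * s)) - (b ^ (-m) * ((b⁻¹ ^ g - 1) * s))| ≤
          (b ^ D)⁻¹ + 2 * ρ' := by
        rw [step_s_eq hb]
        have : (-(b ^ (-m) * s)) - (b ^ (-(m + (g : ℤ))) * s - b ^ (-m) * s) =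
            -(b ^ (-(m + (g : ℤ))) * s) := by ring
        rw [this, abs_neg]
        linarith only [hρ', h1]
      have h3 := hψ.sub_le _ _ _ h2
      rw [hψ.neg] at h3
      linarith only [h3, hcs m]

/-! ## Sums of distances -/

theorem Ad.dn_le (hb : 1 < b) (hζ : ‖ζ‖ = 1) {u s : ℝ} {w : ℂ}
    (h : Ad b ζ u s w) {ρ : ℝ} (hs : |s| ≤ 1) (hw : ‖w‖ ≤ ρ) (n : ℤ) :
    dn (b ^ n * u) ≤ b ^ (-n) + 2 * ρ := by
  obtain ⟨k, hk⟩ := h n
  have h1 : b ^ n * u = k - (b ^ (-n) * s + 2 * (ζ ^ n * w).re) := by linarith only [hk]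
  rw [h1, dn_int_sub]
  refine (dn_le_abs _).trans ((abs_add_le _ _).trans (add_le_add ?_ ?_))
  · exact abs_zpow_neg_mul_le hb hs n
  · exact abs_re_zeta_le hζ hw n

theorem dn_mul_le (hb : 1 < b) {u : ℝ} {D : ℕ} (hu0 : 0 < u) (huD : u ≤ b ^ D) (m : ℤ) :
    dn (b ^ m * u) ≤ b⁻¹ ^ (-(m + D)) := by
  refine (dn_le_abs _).trans ((abs_zpow_mul_le hb hu0 huD m).trans (le_of_eq ?_))
  rw [inv_zpow', neg_neg]

/-- The cross sum over small exponents. -/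
theorem cross_low (hb : 1 < b) (hζ : ‖ζ‖ = 1) {u s : ℝ} {w : ℂ} (h : Ad b ζ u s w)
    {D g : ℕ} {ρ : ℝ} (hg : 4 * D ≤ g) (hu0 : 0 < u) (huD : u ≤ b ^ D)
    (hs : |s| ≤ 1) (hw : ‖w‖ ≤ ρ) (hDρ : (D : ℝ) * ρ ≤ 2)
    (F : Finset ℤ) (hF : ∀ m ∈ F, m ≤ (D : ℤ)) :
    ∑ m ∈ F, dn (b ^ (m + (g : ℤ)) * u) * dn (b ^ m * u) ≤ 2 / (1 - b⁻¹) + 12 := by
  have hb0 : 0 < b := by linarith only [hb]
  have hr0 : 0 < b⁻¹ := by positivity
  have hr1 : b⁻¹ < 1 := inv_lt_one_of_one_lt₀ hb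
  have hρ0 : 0 ≤ ρ := (norm_nonneg w).trans hw
  rw [← Finset.sum_filter_add_sum_filter_not F (fun m => m ≤ -(2 * D : ℤ))]
  have hA : ∑ m ∈ F.filter (fun m => m ≤ -(2 * D : ℤ)),
      dn (b ^ (m + (g : ℤ)) * u) * dn (b ^ m * u) ≤ 1 / (1 - b⁻¹) := by
    have hpt : ∀ m ∈ F.filter (fun m => m ≤ -(2 * D : ℤ)),
        dn (b ^ (m + (g : ℤ)) * u) * dn (b ^ m * u) ≤ b⁻¹ ^ (-(m + D)) := by
      intro m _
      have h1 : dn (b ^ (m + (g : ℤ)) * u) ≤ 1 := (dn_le_half _).trans (by norm_num)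
      calc dn (b ^ (m + (g : ℤ)) * u) * dn (b ^ m * u) ≤ 1 * b⁻¹ ^ (-(m + D)) :=
            mul_le_mul h1 (dn_mul_le hb hu0 huD m) (dn_nonneg _) zero_le_one
        _ = _ := one_mul _
    refine (Finset.sum_le_sum hpt).trans ?_
    refine geom_int hr0 hr1 _ (fun m => -(m + D)) (fun x _ y _ hxy => ?_) (fun m hm => ?_)
    · omega
    · have hm' := (Finset.mem_filter.1 hm).2
      omega
  have hB : ∑ m ∈ F.filter (fun m => ¬ m ≤ -(2 * D : ℤ)),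
      dn (b ^ (m + (g : ℤ)) * u) * dn (b ^ m * u) ≤ 1 / (1 - b⁻¹) + 12 := by
    have hpt : ∀ m ∈ F.filter (fun m => ¬ m ≤ -(2 * D : ℤ)),
        dn (b ^ (m + (g : ℤ)) * u) * dn (b ^ m * u) ≤ b⁻¹ ^ (m + (g : ℤ)) + 2 * ρ := by
      intro m _
      have h1 : dn (b ^ m * u) ≤ 1 := (dn_le_half _).trans (by norm_num)
      have h2 := h.dn_le hb hζ hs hw (m + (g : ℤ))
      have h3 : b ^ (-(m + (g : ℤ))) = b⁻¹ ^ (m + (g : ℤ)) := by rw [inv_zpow']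
      rw [h3] at h2
      calc dn (b ^ (m + (g : ℤ)) * u) * dn (b ^ m * u) ≤ (b⁻¹ ^ (m + (g : ℤ)) + 2 * ρ) * 1 :=
            mul_le_mul h2 h1 (dn_nonneg _) ((dn_nonneg _).trans h2)
        _ = _ := mul_one _
    refine (Finset.sum_le_sum hpt).trans ?_
    rw [Finset.sum_add_distrib]
    refine add_le_add ?_ ?_
    · refine geom_int hr0 hr1 _ (fun m => m + (g : ℤ)) (fun x _ y _ hxy => ?_) (fun m hm => ?_)
      · omega
      · have hm' := (Finset.mem_filter.1 hm).2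
        omega
    · rw [Finset.sum_const, nsmul_eq_mul]
      have hcard : (F.filter (fun m => ¬ m ≤ -(2 * D : ℤ))).card ≤ 3 * D := by
        have hsub : F.filter (fun m => ¬ m ≤ -(2 * D : ℤ)) ⊆ Finset.Ioc (-(2 * D : ℤ)) D := by
          intro m hm
          have hm' := (Finset.mem_filter.1 hm)
          rw [Finset.mem_Ioc]
          exact ⟨by omega, hF m hm'.1⟩
        refine (Finset.card_le_card hsub).trans ?_
        rw [Int.card_Ioc]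
        omega
      have hcard' : ((F.filter (fun m => ¬ m ≤ -(2 * D : ℤ))).card : ℝ) ≤ 3 * D := by
        exact_mod_cast hcard
      have h4 := mul_le_mul_of_nonneg_right hcard' (by linarith only [hρ0] : 0 ≤ 2 * ρ)
      linarith only [h4, hDρ]
  have hfin : 1 / (1 - b⁻¹) + (1 / (1 - b⁻¹) + 12) = 2 / (1 - b⁻¹) + 12 := by ring
  linarith only [hA, hB, hfin]

/-- Sums of squares of the upper bounds for large exponents. -/
theorem sum_high_sq (hb : 1 < b) {ρ : ℝ} (F : Finset ℤ)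
    (hF : ∀ m ∈ F, 0 < m ∧ (m : ℝ) * ρ ^ 2 ≤ 1) :
    ∑ m ∈ F, (b ^ (-m) + 2 * ρ) ^ 2 ≤ 2 * (1 / (1 - b⁻¹ ^ 2) + 4) := by
  have h1 : ∀ m ∈ F, (b ^ (-m) + 2 * ρ) ^ 2 ≤ 2 * ((b ^ (-m)) ^ 2 + 4 * ρ ^ 2) := by
    intro m _
    linarith only [sq_nonneg (b ^ (-m) - 2 * ρ)]
  refine (Finset.sum_le_sum h1).trans ?_
  rw [← Finset.mul_sum, Finset.sum_add_distrib, Finset.sum_const, nsmul_eq_mul]
  have h2 := sum_zpow_neg_sq_le hb F (fun m hm => (hF m hm).1)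
  have h3 := card_mul_sq_le (F := F) (ρ := ρ) hF
  linarith only [h2, h3]

/-- The cross sum over large exponents. -/
theorem cross_high (hb : 1 < b) (hζ : ‖ζ‖ = 1) {u s : ℝ} {w : ℂ} (h : Ad b ζ u s w)
    {D g : ℕ} {ρ : ℝ} (hs : |s| ≤ 1) (hw : ‖w‖ ≤ ρ)
    (F : Finset ℤ) (hF : ∀ m ∈ F, (D : ℤ) < m ∧ (m : ℝ) * ρ ^ 2 ≤ 1) :
    ∑ m ∈ F, dn (b ^ (m + (g : ℤ)) * u) * dn (b ^ m * u) ≤ 2 * (1 / (1 - b⁻¹ ^ 2) + 4) := by
  have hb0 : 0 < b := by linarith only [hb]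
  refine le_trans (Finset.sum_le_sum fun m _ => ?_) (sum_high_sq hb F fun m hm => ⟨?_, (hF m hm).2⟩)
  · have h1 := h.dn_le hb hζ hs hw m
    have h2 := h.dn_le hb hζ hs hw (m + (g : ℤ))
    have h3 : b ^ (-(m + (g : ℤ))) ≤ b ^ (-m) := zpow_le_zpow_right₀ hb.le (by omega)
    rw [sq]
    exact mul_le_mul (h2.trans (by linarith only [h3])) h1 (dn_nonneg _) ((dn_nonneg _).trans h1)
  · have := (hF m hm).1
    omega

/-- The constant bounding all cross sums. -/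
noncomputable def KX (b : ℝ) : ℝ := 2 / (1 - b⁻¹) + 12 + 2 * (1 / (1 - b⁻¹ ^ 2) + 4)

theorem cross_all (hb : 1 < b) (hζ : ‖ζ‖ = 1) {u s : ℝ} {w : ℂ} (h : Ad b ζ u s w)
    {D g : ℕ} {ρ : ℝ} (hg : 4 * D ≤ g) (hu0 : 0 < u) (huD : u ≤ b ^ D)
    (hs : |s| ≤ 1) (hw : ‖w‖ ≤ ρ) (hDρ : (D : ℝ) * ρ ≤ 2)
    (F : Finset ℤ) (hF : ∀ m ∈ F, (m : ℝ) * ρ ^ 2 ≤ 1) :
    ∑ m ∈ F, dn (b ^ (m + (g : ℤ)) * u) * dn (b ^ m * u) ≤ KX b := by
  rw [← Finset.sum_filter_add_sum_filter_not F (fun m => m ≤ (D : ℤ))]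
  have h1 := cross_low hb hζ h hg hu0 huD hs hw hDρ
    (F.filter (fun m => m ≤ (D : ℤ))) (fun m hm => (Finset.mem_filter.1 hm).2)
  have h2 := cross_high (g := g) hb hζ h hs hw
    (F.filter (fun m => ¬ m ≤ (D : ℤ))) (fun m hm => by
      rw [Finset.mem_filter, not_le] at hm
      exact ⟨hm.2, hF m hm.1⟩)
  unfold KX
  linarith only [h1, h2]

/-- All sums of squares of distances over `m ≤ ρ ^ (-2)` are bounded by `A`. -/
def Sq (b u A ρ : ℝ) : Prop :=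
  ∀ F : Finset ℤ, (∀ m ∈ F, (m : ℝ) * ρ ^ 2 ≤ 1) → ∑ m ∈ F, dn (b ^ m * u) ^ 2 ≤ A

/-- The constant of a step. -/
noncomputable def KS (b : ℝ) : ℝ := 2 * (2 / (1 - b⁻¹) + 12) + 2 * (1 / (1 - b⁻¹ ^ 2) + 4)

/-- The recursion for the sums of squares. -/
theorem Sq.step (hb : 1 < b) (hζ : ‖ζ‖ = 1)
    {u s : ℝ} {w : ℂ} (h : Ad b ζ u s w)
    {D g : ℕ} {A ρ ρ' : ℝ} (hg : 4 * D ≤ g) (hu0 : 0 < u) (huD : u ≤ b ^ D)
    (hs : |s| ≤ 1) (hw : ‖w‖ ≤ ρ) (hDρ : (D : ℝ) * ρ ≤ 2)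
    (hgρ : ((D : ℝ) + g) * ρ ^ 2 ≤ 1) (hw' : ‖(ζ ^ g - 1) * w‖ ≤ ρ')
    (hsq : Sq b u A ρ) :
    Sq b ((b ^ g - 1) * u) (2 * A + KS b) ρ' := by
  intro F hF
  have hb0 : 0 < b := by linarith only [hb]
  have h' := h.step hb hζ g
  have hs' : |(b⁻¹ ^ g - 1) * s| ≤ 1 := abs_step_s_le hb hs g
  rw [← Finset.sum_filter_add_sum_filter_not F (fun m => m ≤ (D : ℤ))]
  have hhigh : ∑ m ∈ F.filter (fun m => ¬ m ≤ (D : ℤ)), dn (b ^ m * ((b ^ g - 1) * u)) ^ 2 ≤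
      2 * (1 / (1 - b⁻¹ ^ 2) + 4) := by
    refine le_trans (Finset.sum_le_sum fun m _ => ?_) (sum_high_sq hb _ (ρ := ρ') fun m hm => ?_)
    · exact pow_le_pow_left₀ (dn_nonneg _) (h'.dn_le hb hζ hs' hw' m) 2
    · rw [Finset.mem_filter, not_le] at hm
      exact ⟨by omega, hF m hm.1⟩
  set G := F.filter (fun m => m ≤ (D : ℤ)) with hG
  have hGm : ∀ m ∈ G, m ≤ (D : ℤ) := fun m hm => (Finset.mem_filter.1 hm).2
  have hρ2 : 0 ≤ ρ ^ 2 := sq_nonneg ρ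
  have h1 : ∑ m ∈ G, dn (b ^ m * u) ^ 2 ≤ A := by
    refine hsq G fun m hm => ?_
    have h1 : (m : ℝ) ≤ D + g := by
      have h2 : (m : ℝ) ≤ D := by exact_mod_cast hGm m hm
      have h3 : (0 : ℝ) ≤ g := Nat.cast_nonneg g
      linarith only [h2, h3]
    exact (mul_le_mul_of_nonneg_right h1 hρ2).trans hgρ
  have h2 : ∑ m ∈ G, dn (b ^ (m + (g : ℤ)) * u) ^ 2 ≤ A := by
    have := hsq (G.map (addRightEmbedding (g : ℤ))) (fun m hm => by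
      rw [Finset.mem_map] at hm
      obtain ⟨k, hk, rfl⟩ := hm
      have h1 : (k : ℝ) ≤ D := by exact_mod_cast hGm k hk
      simp only [addRightEmbedding_apply, Int.cast_add, Int.cast_natCast]
      exact (mul_le_mul_of_nonneg_right (by linarith only [h1]) hρ2).trans hgρ)
    rwa [Finset.sum_map] at this
  have h3 := cross_low hb hζ h hg hu0 huD hs hw hDρ G hGm
  have hlow : ∑ m ∈ G, dn (b ^ m * ((b ^ g - 1) * u)) ^ 2 ≤
      2 * A + 2 * (2 / (1 - b⁻¹) + 12) := by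
    have h4 : ∀ m ∈ G, dn (b ^ m * ((b ^ g - 1) * u)) ^ 2 ≤
        dn (b ^ m * u) ^ 2 + dn (b ^ (m + (g : ℤ)) * u) ^ 2 +
          2 * (dn (b ^ (m + (g : ℤ)) * u) * dn (b ^ m * u)) := by
      intro m _
      rw [step_u_eq hb]
      have h5 := dn_sub (b ^ (m + (g : ℤ)) * u) (b ^ m * u)
      have h6 := pow_le_pow_left₀ (dn_nonneg _) h5 2
      linarith only [h6]
    refine (Finset.sum_le_sum h4).trans ?_
    rw [Finset.sum_add_distrib, Finset.sum_add_distrib, ← Finset.mul_sum]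
    linarith only [h1, h2, h3]
  unfold KS
  linarith only [hlow, hhigh]

/-- Some bound for the sums of squares. -/
theorem exists_sq (hb : 1 < b) {u ρ : ℝ} {D : ℕ} (hu0 : 0 < u) (huD : u ≤ b ^ D)
    (hρ : 0 < ρ) : ∃ A : ℝ, Sq b u A ρ := by
  have hb0 : 0 < b := by linarith only [hb]
  have hr0 : 0 < b⁻¹ := by positivity
  have hr1 : b⁻¹ < 1 := inv_lt_one_of_one_lt₀ hb
  set N : ℤ := -(D : ℤ) with hN
  set M : ℤ := ⌊(ρ ^ 2)⁻¹⌋ with hM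
  refine ⟨1 / (1 - b⁻¹) + (Finset.Ioc N M).card, ?_⟩
  intro F hF
  rw [← Finset.sum_filter_add_sum_filter_not F (fun m => m ≤ N)]
  refine add_le_add ?_ ?_
  · have hpt : ∀ m ∈ F.filter (fun m => m ≤ N), dn (b ^ m * u) ^ 2 ≤ b⁻¹ ^ (-(m + D)) := by
      intro m hm
      have h1 : dn (b ^ m * u) ≤ 1 := (dn_le_half _).trans (by norm_num)
      have h2 := dn_mul_le hb hu0 huD m
      calc dn (b ^ m * u) ^ 2 = dn (b ^ m * u) * dn (b ^ m * u) := sq _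
        _ ≤ 1 * b⁻¹ ^ (-(m + D)) := mul_le_mul h1 h2 (dn_nonneg _) zero_le_one
        _ = _ := one_mul _
    refine (Finset.sum_le_sum hpt).trans ?_
    refine geom_int hr0 hr1 _ (fun m => -(m + D)) (fun x _ y _ hxy => ?_) (fun m hm => ?_)
    · omega
    · have hm' := (Finset.mem_filter.1 hm).2
      omega
  · have hsub : F.filter (fun m => ¬ m ≤ N) ⊆ Finset.Ioc N M := by
      intro m hm
      rw [Finset.mem_filter] at hm
      rw [Finset.mem_Ioc]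
      refine ⟨by omega, ?_⟩
      rw [hM, Int.le_floor]
      have h1 := hF m hm.1
      have h2 : 0 < ρ ^ 2 := by positivity
      rw [← one_div, le_div_iff₀ h2]
      exact h1
    calc ∑ m ∈ F.filter (fun m => ¬ m ≤ N), dn (b ^ m * u) ^ 2 ≤
        ∑ _m ∈ F.filter (fun m => ¬ m ≤ N), (1 : ℝ) := by
          refine Finset.sum_le_sum fun m _ => ?_
          have h1 : dn (b ^ m * u) ≤ 1 := (dn_le_half _).trans (by norm_num)
          exact pow_le_one₀ (dn_nonneg _) h1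
      _ = ((F.filter (fun m => ¬ m ≤ N)).card : ℝ) := by simp
      _ ≤ ((Finset.Ioc N M).card : ℝ) := by exact_mod_cast Finset.card_le_card hsub

end Vale.Agent.P105.Dig
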