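import Vale.Agent.P105.Dig.NT

/-!
# Good frequencies, general form: the iteration
-/

open MeasureTheory Real Filter Topology
open scoped ENNReal

namespace Vale.Agent.P105.Dig

open Vale.Agent.P105.Salem

variable {b : ℝ} {ζ : ℂ}

theorem Ad.start (hb : 1 < b) (hζ : ‖ζ‖ = 1)
    (hT : ∀ n : ℤ, ∃ k : ℤ, b ^ n + b ^ (-n) + 2 * (ζ ^ n).re = k) (q k g : ℕ) :
    Ad b ζ (q * (b ^ (k : ℤ) * (b ^ g - 1))) (q * (b ^ (-(k : ℤ)) * (b⁻¹ ^ g - 1)))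
      (q * (ζ ^ k * (ζ ^ g - 1))) := by
  have hb0 : b ≠ 0 := by positivity
  have hζ0 : ζ ≠ 0 := by
    intro h0
    rw [h0, norm_zero] at hζ
    norm_num at hζ
  intro m
  obtain ⟨k₁, hk₁⟩ := hT (m + k + g)
  obtain ⟨k₂, hk₂⟩ := hT (m + k)
  refine ⟨q * (k₁ - k₂), ?_⟩
  push_cast
  rw [← hk₁, ← hk₂]
  have e1 : b ^ (m + (k : ℤ) + (g : ℤ)) = b ^ m * b ^ (k : ℤ) * b ^ g := by
    rw [zpow_add₀ hb0, zpow_add₀ hb0, zpow_natCast b g]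
  have e1' : b ^ (m + (k : ℤ)) = b ^ m * b ^ (k : ℤ) := by
    rw [zpow_add₀ hb0]
  have e2 : b ^ (-(m + (k : ℤ) + (g : ℤ))) = b ^ (-m) * b ^ (-(k : ℤ)) * b⁻¹ ^ g := by
    rw [neg_add, neg_add, zpow_add₀ hb0, zpow_add₀ hb0, zpow_neg b (g : ℤ), zpow_natCast b g,
      inv_pow]
  have e2' : b ^ (-(m + (k : ℤ))) = b ^ (-m) * b ^ (-(k : ℤ)) := by
    rw [neg_add, zpow_add₀ hb0]
  have e3 : ζ ^ (m + (k : ℤ) + (g : ℤ)) = ζ ^ m * ζ ^ k * ζ ^ g := by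
    rw [zpow_add₀ hζ0, zpow_add₀ hζ0, zpow_natCast, zpow_natCast]
  have e3' : ζ ^ (m + (k : ℤ)) = ζ ^ m * ζ ^ k := by
    rw [zpow_add₀ hζ0, zpow_natCast]
  rw [e1, e1', e2, e2', e3, e3']
  have e4 : (ζ ^ m * ((q : ℂ) * (ζ ^ k * (ζ ^ g - 1)))).re =
      q * ((ζ ^ m * ζ ^ k * ζ ^ g).re - (ζ ^ m * ζ ^ k).re) := by
    rw [← Complex.sub_re, ← Complex.re_ofReal_mul]
    congr 1
    push_cast
    ring
  rw [e4]
  ring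

/-- The starting triple. -/
theorem exists_start' (hb : 1 < b) (hζ : ‖ζ‖ = 1)
    (hT : ∀ n : ℤ, ∃ k : ℤ, b ^ n + b ^ (-n) + 2 * (ζ ^ n).re = k)
    {L : ℝ} {ψ : ℝ → ℝ} (hψ : Prof L ψ) {q : ℕ} (hq1 : 1 ≤ q)
    (hq : ∀ (j : ℤ) (g : ℕ), 1 ≤ g → 0 < ψ (q * (b ^ j * (b ^ g - 1))) ∧
      0 < ψ (q * (b ^ j * (b⁻¹ ^ g - 1)))) :
    ∃ (g₀ : ℕ) (u s : ℝ) (w : ℂ) (c : ℝ), Ad b ζ u s w ∧ 0 < u ∧ u ≤ b ^ g₀ ∧ |s| ≤ 1 ∧
      ‖w‖ ≤ 1 / 16 ∧ 0 < c ∧ (∀ m : ℤ, c ≤ ψ (b ^ m * u)) ∧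
      (∀ m : ℤ, c ≤ ψ (b ^ (-m) * s)) := by
  have hb0 : (0 : ℝ) < b := by linarith only [hb]
  have hL := hψ.two_le
  have hL0 : 0 < L := by linarith only [hL]
  have hq0 : (0 : ℝ) < q := by exact_mod_cast hq1
  have hpi := pi_pos
  -- choice of `g`
  obtain ⟨g, hg1, hg⟩ : ∃ g : ℕ, 1 ≤ g ∧ q * ‖ζ ^ g - 1‖ ≤ 1 / (8 * L) := by
    obtain ⟨Q, hQ⟩ := exists_nat_ge (16 * π * L * q)
    have hQ1 : 1 ≤ Q := by
      by_contra h0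
      have h1 : Q = 0 := by omega
      rw [h1] at hQ
      have : 0 < 16 * π * L * q := by positivity
      norm_num at hQ
      linarith only [this, hQ]
    obtain ⟨g, hg0, -, hg⟩ := st_dirichlet_aux hζ hQ1
    refine ⟨g, hg0, ?_⟩
    have hQpos : (0 : ℝ) < Q := by exact_mod_cast hQ1
    calc q * ‖ζ ^ g - 1‖ ≤ q * (2 * π / Q) := mul_le_mul_of_nonneg_left hg hq0.le
      _ ≤ 1 / (8 * L) := by
        rw [mul_div_assoc', div_le_div_iff₀ hQpos (by positivity)]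
        linarith only [hQ]
  -- choice of `k`
  obtain ⟨k, hk⟩ := pow_unbounded_of_one_lt (q : ℝ) hb
  have hA := Ad.start hb hζ hT q k g
  have hbg : 1 < b ^ g := one_lt_pow₀ hb (by omega)
  set u : ℝ := q * (b ^ (k : ℤ) * (b ^ g - 1)) with hu
  set s : ℝ := q * (b ^ (-(k : ℤ)) * (b⁻¹ ^ g - 1)) with hs
  set w : ℂ := q * (ζ ^ k * (ζ ^ g - 1)) with hw
  have hu0 : 0 < u := by
    have h1 : 0 < b ^ g - 1 := by linarith only [hbg]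
    rw [hu]
    positivity
  obtain ⟨g₀, hg₀⟩ := pow_unbounded_of_one_lt u hb
  have hs1 : |s| ≤ 1 := by
    have h1 : b⁻¹ ^ g ≤ 1 := pow_le_one₀ (by positivity) (inv_le_one_of_one_le₀ hb.le)
    have h2 : 0 < b⁻¹ ^ g := by positivity
    have h3 : |b⁻¹ ^ g - 1| ≤ 1 := by
      rw [abs_le]
      constructor <;> linarith only [h1, h2]
    have h4 : q * b ^ (-(k : ℤ)) ≤ 1 := by
      rw [zpow_neg, zpow_natCast, ← div_eq_mul_inv, div_le_one (by positivity)]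
      exact hk.le
    have h5 : 0 < q * b ^ (-(k : ℤ)) := by positivity
    rw [hs, ← mul_assoc, abs_mul, abs_of_pos h5]
    exact mul_le_one₀ h4 (abs_nonneg _) h3
  have hw1 : ‖w‖ ≤ 1 / (8 * L) := by
    rw [hw, norm_mul, norm_mul, norm_pow, hζ, one_pow, one_mul, Complex.norm_natCast]
    exact hg
  have hw2 : ‖w‖ ≤ 1 / 16 := by
    refine hw1.trans ?_
    exact one_div_le_one_div_of_le (by norm_num) (by linarith only [hL])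
  -- large exponents
  obtain ⟨E, hE⟩ := pow_unbounded_of_one_lt (4 * L) hb
  have hEL : L * b ^ (-(E : ℤ)) ≤ 1 / 4 := by
    rw [zpow_neg, zpow_natCast, ← div_eq_mul_inv, div_le_iff₀ (by positivity)]
    linarith only [hE]
  have hR : ∀ m : ℤ, L * |2 * (ζ ^ m * w).re| ≤ 1 / 4 := by
    intro m
    have h1 := abs_re_zeta_le hζ hw1 m
    calc L * |2 * (ζ ^ m * w).re| ≤ L * (2 * (1 / (8 * L))) := mul_le_mul_of_nonneg_left h1 hL0.le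
      _ = 1 / 4 := by
        field_simp
        norm_num
  have hU : ∀ m : ℤ, m ≤ -(E + g₀ : ℤ) → L * |b ^ m * u| ≤ 1 / 4 := by
    intro m hm
    have h1 := abs_zpow_mul_le hb hu0 hg₀.le m
    have h2 : b ^ (m + (g₀ : ℤ)) ≤ b ^ (-(E : ℤ)) := zpow_le_zpow_right₀ hb.le (by omega)
    exact (mul_le_mul_of_nonneg_left (h1.trans h2) hL0.le).trans hEL
  have hS : ∀ m : ℤ, (E + g₀ : ℤ) ≤ m → L * |b ^ (-m) * s| ≤ 1 / 4 := by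
    intro m hm
    have h1 := abs_zpow_neg_mul_le hb hs1 m
    have h2 : b ^ (-m) ≤ b ^ (-(E : ℤ)) := zpow_le_zpow_right₀ hb.le (by omega)
    exact (mul_le_mul_of_nonneg_left (h1.trans h2) hL0.le).trans hEL
  have hlow : ∀ x : ℝ, L * |x| ≤ 1 / 2 → 1 / 2 ≤ ψ x := by
    intro x hx
    have h1 := hψ.lip 0 x
    rw [hψ.zero, zero_sub, abs_neg] at h1
    linarith only [h1, hx]
  have hb0' : b ≠ 0 := hb0.ne'
  have hcu : ∃ c : ℝ, 0 < c ∧ ∀ m : ℤ, c ≤ ψ (b ^ m * u) := by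
    refine st_exists_lower (M := (E + g₀ : ℤ)) ?_ ?_ ?_
    · intro m hm
      obtain ⟨k', hk'⟩ := hA m
      have h1 : b ^ m * u = k' - (b ^ (-m) * s + 2 * (ζ ^ m * w).re) := by linarith only [hk']
      rw [h1, hψ.per]
      apply hlow
      have h2 := abs_add_le (b ^ (-m) * s) (2 * (ζ ^ m * w).re)
      have h3 := mul_le_mul_of_nonneg_left h2 hL0.le
      linarith only [h3, hS m hm, hR m]
    · intro m hm
      apply hlow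
      linarith only [hU m hm]
    · intro m
      have h1 : b ^ m * u = q * (b ^ (m + (k : ℤ)) * (b ^ g - 1)) := by
        rw [hu, zpow_add₀ hb0']
        ring
      rw [h1]
      exact (hq _ _ hg1).1
  have hcs : ∃ c : ℝ, 0 < c ∧ ∀ m : ℤ, c ≤ ψ (b ^ (-m) * s) := by
    refine st_exists_lower (M := (E + g₀ : ℤ)) ?_ ?_ ?_
    · intro m hm
      apply hlow
      linarith only [hS m hm]
    · intro m hm
      obtain ⟨k', hk'⟩ := hA m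
      have h1 : b ^ (-m) * s = k' - (b ^ m * u + 2 * (ζ ^ m * w).re) := by linarith only [hk']
      rw [h1, hψ.per]
      apply hlow
      have h2 := abs_add_le (b ^ m * u) (2 * (ζ ^ m * w).re)
      have h3 := mul_le_mul_of_nonneg_left h2 hL0.le
      linarith only [h3, hU m hm, hR m]
    · intro m
      have h1 : b ^ (-m) * s = q * (b ^ (-m + -(k : ℤ)) * (b⁻¹ ^ g - 1)) := by
        rw [hs, zpow_add₀ hb0']
        ring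
      rw [h1]
      exact (hq _ _ hg1).2
  obtain ⟨c1, hc1, h1⟩ := hcu
  obtain ⟨c2, hc2, h2⟩ := hcs
  exact ⟨g₀, u, s, w, min c1 c2, hA, hu0, hg₀.le, hs1, hw2, lt_min hc1 hc2,
    fun m => (min_le_left _ _).trans (h1 m), fun m => (min_le_right _ _).trans (h2 m)⟩

/-- The states of the construction. -/
structure Stt (b : ℝ) (ζ : ℂ) (L : ℝ) (ψ : ℝ → ℝ) (c₀ u₀ u s : ℝ) (w : ℂ) (D : ℕ) (ρ : ℝ) :
    Prop where
  adm : Ad b ζ u s w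
  hD : 1 ≤ D
  hu₀ : u₀ ≤ u
  huD : u ≤ b ^ D
  hs : |s| ≤ 1
  hw : ‖w‖ ≤ ρ
  hρ : 0 < ρ
  cu : ∀ m : ℤ, c₀ + 8 * L * ((b ^ D)⁻¹ + ρ) ≤ ψ (b ^ m * u)
  cs : ∀ m : ℤ, c₀ + 8 * L * ((b ^ D)⁻¹ + ρ) ≤ ψ (b ^ (-m) * s)

theorem Stt.step (hb : 1 < b) (hζ : ‖ζ‖ = 1) {L : ℝ} {ψ : ℝ → ℝ} (hψ : Prof L ψ)
    {c₀ u₀ u s : ℝ} {w : ℂ} {D : ℕ} {ρ : ℝ} (hu₀ : 0 < u₀) (h : Stt b ζ L ψ c₀ u₀ u s w D ρ)
    {g : ℕ} {ρ' : ℝ} (hg : 4 * D ≤ g) (h2 : 2 ≤ b ^ (4 * D)) (hρρ' : ‖ζ ^ g - 1‖ * ρ ≤ ρ')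
    (hρ'0 : 0 < ρ') (hρ' : ρ' ≤ ρ / 2) :
    Stt b ζ L ψ c₀ u₀ ((b ^ g - 1) * u) ((b⁻¹ ^ g - 1) * s) ((ζ ^ g - 1) * w) (D + g) ρ' := by
  have hb0 : 0 < b := by linarith only [hb]
  have hL0 : 0 < L := by linarith only [hψ.two_le]
  have hu : 0 < u := lt_of_lt_of_le hu₀ h.hu₀
  have hbg : 2 ≤ b ^ g := h2.trans (pow_le_pow_right₀ hb.le hg)
  have hw' : ‖(ζ ^ g - 1) * w‖ ≤ ρ' := by
    rw [norm_mul]
    exact (mul_le_mul_of_nonneg_left h.hw (norm_nonneg _)).trans hρρ'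
  have hE : 0 < (b ^ D)⁻¹ := by positivity
  have hE' : (b ^ (D + g))⁻¹ ≤ (b ^ D)⁻¹ / 2 := by
    rw [pow_add, mul_inv, div_eq_mul_inv]
    refine mul_le_mul_of_nonneg_left ?_ hE.le
    exact inv_anti₀ (by norm_num) hbg
  obtain ⟨k1, k2⟩ := h.adm.psi_step hb hζ hψ hg hu h.huD h.hs hw' h.cu h.cs
  have hfin : c₀ + 8 * L * ((b ^ (D + g))⁻¹ + ρ') ≤
      c₀ + 8 * L * ((b ^ D)⁻¹ + ρ) - L * ((b ^ D)⁻¹ + 2 * ρ') := by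
    have h3 : L * (b ^ (D + g))⁻¹ ≤ L * ((b ^ D)⁻¹ / 2) := mul_le_mul_of_nonneg_left hE' hL0.le
    have h4 : L * ρ' ≤ L * (ρ / 2) := mul_le_mul_of_nonneg_left hρ' hL0.le
    have h5 : 0 < L * (b ^ D)⁻¹ := by positivity
    have h6 : 0 < L * ρ := mul_pos hL0 h.hρ
    linarith only [h3, h4, h5, h6]
  refine ⟨h.adm.step hb hζ g, by have := h.hD; omega, ?_, ?_, abs_step_s_le hb h.hs g, hw',
    hρ'0, fun m => hfin.trans (k1 m), fun m => hfin.trans (k2 m)⟩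
  · have : u ≤ (b ^ g - 1) * u := by nlinarith only [hu, hbg]
    exact h.hu₀.trans this
  · rw [pow_add, mul_comm (b ^ D)]
    have h3 : (b ^ g - 1) * u ≤ b ^ g * u := by linarith only [hu]
    exact h3.trans (mul_le_mul_of_nonneg_left h.huD (by positivity))

/-- The invariants along the iteration. -/
def Gd (b : ℝ) (ζ : ℂ) (L : ℝ) (ψ : ℝ → ℝ) (c₀ u₀ E ρs : ℝ) (n : ℕ) (r A : ℝ) : Prop :=
  ∃ (u s : ℝ) (w : ℂ) (D : ℕ) (ρ a : ℝ), Stt b ζ L ψ c₀ u₀ u s w D ρ ∧ (b ^ D)⁻¹ ≤ E ∧ ρ ≤ ρs ∧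
    (D : ℝ) ^ 4 * ρ ^ 3 ≤ 1 ∧ n ≤ D ∧ Sq b u a ρ ∧ r ≤ -log ρ ∧ a ≤ A

theorem Gd.step (hb : 1 < b) (hζ : ‖ζ‖ = 1) {L : ℝ} {ψ : ℝ → ℝ} (hψ : Prof L ψ)
    {c₀ u₀ E ρs : ℝ} (hu₀ : 0 < u₀) (hρs : ρs ≤ 1 / 10 ^ 20) (h2 : E ^ 4 ≤ 1 / 2) {n : ℕ}
    {r A : ℝ} (h : Gd b ζ L ψ c₀ u₀ E ρs n r A) :
    Gd b ζ L ψ c₀ u₀ E ρs (n + 1) (17 / 8 * r) (2 * A + KS b) := by
  obtain ⟨u, s, w, D, ρ, a, hS, hbD, hρ, hI, hn, hst, hr, hA⟩ := h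
  have hb0 : 0 < b := by linarith only [hb]
  have hρ0 := hS.hρ
  have hρ1 : ρ ≤ 1 / 10 ^ 20 := hρ.trans hρs
  have hDρ : (D : ℝ) * ρ ≤ 2 :=
    D_mul_rho_le hρ0 hI (by norm_num) (hρ1.trans (by norm_num))
  have hu : 0 < u := lt_of_lt_of_le hu₀ hS.hu₀
  have h24 : 2 ≤ b ^ (4 * D) := two_le_pow_of hb h2 hbD
  obtain ⟨g, ρ', hg, hρρ', hρ'0, hρ', hgρ, hI', hρ17⟩ := Salem.select hζ hS.hD hρ0 hρ1 hDρ
  have hS' := hS.step hb hζ hψ hu₀ hg h24 hρρ' hρ'0 hρ'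
  have hst' := Sq.step hb hζ hS.adm hg hu hS.huD hS.hs hS.hw hDρ hgρ hS'.hw hst
  refine ⟨_, _, _, D + g, ρ', 2 * a + KS b, hS', ?_, ?_, ?_, ?_, hst', ?_, ?_⟩
  · refine le_trans ?_ hbD
    exact inv_anti₀ (by positivity) (pow_le_pow_right₀ hb.le (by omega))
  · linarith only [hρ, hρ'0, hρ']
  · push_cast
    exact hI'
  · have := hS.hD
    omega
  · have h3 : 8 * log ρ' ≤ 17 * log ρ := by
      have := log_le_log (by (clear * - hρ'0; positivity)) (hρ17 hI)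
      rwa [log_pow, log_pow] at this
    linarith only [hr, h3]
  · linarith only [hA]

theorem Gd.iterate (hb : 1 < b) (hζ : ‖ζ‖ = 1) {L : ℝ} {ψ : ℝ → ℝ} (hψ : Prof L ψ)
    {c₀ u₀ E ρs : ℝ} (hu₀ : 0 < u₀) (hρs : ρs ≤ 1 / 10 ^ 20) (h2 : E ^ 4 ≤ 1 / 2) {r A : ℝ}
    (h : Gd b ζ L ψ c₀ u₀ E ρs 0 r A) (n : ℕ) :
    Gd b ζ L ψ c₀ u₀ E ρs n ((17 / 8) ^ n * r) (2 ^ n * (A + KS b) - KS b) := by
  induction n with
  | zero => simpa using h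
  | succ n ih =>
    have := ih.step hb hζ hψ hu₀ hρs h2
    convert this using 1 <;> ring

/-- The first state. -/
theorem first_state' (hb : 1 < b) (hζ : ‖ζ‖ = 1) {L : ℝ} {ψ : ℝ → ℝ} (hψ : Prof L ψ)
    {g₀ : ℕ} {u s : ℝ} {w : ℂ} {c : ℝ} (hadm : Ad b ζ u s w) (hu : 0 < u) (hug : u ≤ b ^ g₀)
    (hs : |s| ≤ 1) (hw : ‖w‖ ≤ 1 / 16)
    (hcu : ∀ m : ℤ, c ≤ ψ (b ^ m * u)) (hcs : ∀ m : ℤ, c ≤ ψ (b ^ (-m) * s))
    {E ρs : ℝ} (hE0 : 0 < E) (hEc : L * E ≤ c / 40) (hE4 : E ^ 4 ≤ 1 / 2) (hρs0 : 0 < ρs)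
    (hρs3 : L * ρs ≤ c / 40) :
    ∃ (u' s' : ℝ) (w' : ℂ) (D : ℕ) (ρ : ℝ), Stt b ζ L ψ (c / 2) u u' s' w' D ρ ∧
      (b ^ D)⁻¹ ≤ E ∧ ρ ≤ ρs ∧ (D : ℝ) * ρ ≤ 2 := by
  have hb0 : 0 < b := by linarith only [hb]
  have hL0 : 0 < L := by linarith only [hψ.two_le]
  obtain ⟨D, hDg, hD1, hDE⟩ := exists_D hb g₀ hE0
  have huD : u ≤ b ^ D := hug.trans (pow_le_pow_right₀ hb.le hDg)
  obtain ⟨g, ρ₁, hg, hρ₁0, hρ₁s, hw₁, hDρ₁⟩ := first_numbers hζ hw hD1 hρs0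
  have hbg : 2 ≤ b ^ g := (two_le_pow_of hb hE4 hDE).trans (pow_le_pow_right₀ hb.le hg)
  have hDE' : (b ^ (D + g))⁻¹ ≤ E := by
    refine le_trans ?_ hDE
    exact inv_anti₀ (by positivity) (pow_le_pow_right₀ hb.le (by omega))
  obtain ⟨k1, k2⟩ := hadm.psi_step hb hζ hψ hg hu huD hs hw₁ hcu hcs
  have hfin : c / 2 + 8 * L * ((b ^ (D + g))⁻¹ + ρ₁) ≤ c - L * ((b ^ D)⁻¹ + 2 * ρ₁) := by
    have h3 : L * (b ^ (D + g))⁻¹ ≤ c / 40 :=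
      (mul_le_mul_of_nonneg_left hDE' hL0.le).trans hEc
    have h3' : L * (b ^ D)⁻¹ ≤ c / 40 := (mul_le_mul_of_nonneg_left hDE hL0.le).trans hEc
    have h3'' : L * ρ₁ ≤ c / 40 := (mul_le_mul_of_nonneg_left hρ₁s hL0.le).trans hρs3
    have hc : 0 < c := by
      have : 0 < L * E := by positivity
      linarith only [this, hEc]
    linarith only [h3, h3', h3'', hc]
  refine ⟨_, _, _, D + g, ρ₁, ⟨hadm.step hb hζ g, by omega, ?_, ?_,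
    abs_step_s_le hb hs g, hw₁, hρ₁0, fun m => hfin.trans (k1 m), fun m => hfin.trans (k2 m)⟩,
    hDE', hρ₁s, hDρ₁⟩
  · nlinarith only [hu, hbg]
  · rw [pow_add, mul_comm (b ^ D)]
    have h3 : (b ^ g - 1) * u ≤ b ^ g * u := by linarith only [hu]
    exact h3.trans (mul_le_mul_of_nonneg_left huD (by positivity))

/-- The first good state. -/
theorem first_good' (hb : 1 < b) (hζ : ‖ζ‖ = 1) {L : ℝ} {ψ : ℝ → ℝ} (hψ : Prof L ψ)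
    {c₀ u₀ E ρs : ℝ} (hu₀ : 0 < u₀) (hE4 : E ^ 4 ≤ 1 / 2)
    (hρs1 : ρs ≤ 1 / 10 ^ 20) {u s : ℝ} {w : ℂ} {D : ℕ} {ρ : ℝ}
    (hS : Stt b ζ L ψ c₀ u₀ u s w D ρ)
    (hDE : (b ^ D)⁻¹ ≤ E) (hρs : ρ ≤ ρs) (hDρ : (D : ℝ) * ρ ≤ 2) :
    ∃ r A : ℝ, 0 < r ∧ Gd b ζ L ψ c₀ u₀ E ρs 0 r A := by
  have hb0 : 0 < b := by linarith only [hb]
  obtain ⟨g₂, ρ₂, hg₂, hρρ₂, hρ₂0, hρ₂, -, hI₂, -⟩ :=
    Salem.select hζ hS.hD hS.hρ (hρs.trans hρs1) hDρ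
  have hS₂ := hS.step hb hζ hψ hu₀ hg₂ (two_le_pow_of hb hE4 hDE) hρρ₂ hρ₂0 hρ₂
  have hu₂ : 0 < (b ^ g₂ - 1) * u := lt_of_lt_of_le hu₀ hS₂.hu₀
  obtain ⟨a₂, hst₂⟩ := exists_sq hb hu₂ hS₂.huD hρ₂0
  have hr₂ : 0 < -log ρ₂ := by
    have : ρ₂ < 1 := by
      have : (1 : ℝ) / 10 ^ 20 < 1 := by norm_num
      linarith only [hρs1, hρs, hρ₂, this, hρ₂0]
    linarith only [log_neg hρ₂0 this]
  refine ⟨-log ρ₂, a₂, hr₂, _, _, _, _, ρ₂, a₂, hS₂, ?_, ?_, ?_, Nat.zero_le _, hst₂,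
    le_refl _, le_refl _⟩
  · refine le_trans ?_ hDE
    exact inv_anti₀ (by positivity) (pow_le_pow_right₀ hb.le (by omega))
  · have := hS.hρ
    linarith only [hρs, hρ₂0, hρ₂]
  · push_cast at hI₂ ⊢
    exact hI₂

/-- Growth of the iterates. -/
theorem exists_n' (hb : 1 < b) {r A K η Lam : ℝ} (hr : 0 < r) (hη : 0 < η) (hLam : 0 ≤ Lam) :
    ∃ n : ℕ, |log η| ≤ (17 / 8) ^ n * r ∧ (b⁻¹) ^ n ≤ η ∧
      Lam * (2 ^ n * (A + K) - K) ≤ (17 / 8) ^ n * r := by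
  have hb0 : 0 < b := by linarith
  have hbinv : b⁻¹ < 1 := inv_lt_one_of_one_lt₀ hb
  have hlim1 : Tendsto (fun n : ℕ => (17 / 16 : ℝ) ^ n) atTop atTop :=
    tendsto_pow_atTop_atTop_of_one_lt (by norm_num)
  have hlim2 : Tendsto (fun n : ℕ => (17 / 8 : ℝ) ^ n) atTop atTop :=
    tendsto_pow_atTop_atTop_of_one_lt (by norm_num)
  have hlim3 : Tendsto (fun n : ℕ => (b⁻¹) ^ n) atTop (𝓝 0) :=
    tendsto_pow_atTop_nhds_zero_of_lt_one (by positivity) hbinv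
  have hev := ((hlim1.eventually_ge_atTop (Lam * (|A + K| + |K|) / r)).and
    ((hlim2.eventually_ge_atTop (|log η| / r)).and
      (hlim3.eventually (eventually_le_nhds hη)))).exists
  obtain ⟨n, hn1, hn2, hn3⟩ := hev
  rw [div_le_iff₀ hr] at hn1 hn2
  refine ⟨n, hn2, hn3, ?_⟩
  have h2n : (1 : ℝ) ≤ 2 ^ n := one_le_pow₀ (by norm_num)
  have h4 : (17 / 8 : ℝ) ^ n = 2 ^ n * (17 / 16) ^ n := by
    rw [← mul_pow]; norm_num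
  rw [h4, mul_assoc]
  have h5 : Lam * (2 ^ n * (A + K) - K) ≤ 2 ^ n * (Lam * (|A + K| + |K|)) := by
    have h6 : A + K ≤ |A + K| := le_abs_self _
    have h7 : -K ≤ |K| := neg_le_abs K
    have h8 : 2 ^ n * (A + K) ≤ 2 ^ n * |A + K| := by (clear * - h6; gcongr)
    have h9 : |K| ≤ 2 ^ n * |K| := le_mul_of_one_le_left (abs_nonneg K) h2n
    have h10 : 2 ^ n * (A + K) - K ≤ 2 ^ n * (|A + K| + |K|) := by
      linarith only [h7, h8, h9]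
    calc Lam * (2 ^ n * (A + K) - K) ≤ Lam * (2 ^ n * (|A + K| + |K|)) :=
          mul_le_mul_of_nonneg_left h10 hLam
      _ = _ := by ring
  exact h5.trans (mul_le_mul_of_nonneg_left hn1 (by positivity))

/-- The final states. -/
theorem exists_states' (hb : 1 < b) (hζ : ‖ζ‖ = 1)
    (hT : ∀ n : ℤ, ∃ k : ℤ, b ^ n + b ^ (-n) + 2 * (ζ ^ n).re = k)
    {L : ℝ} {ψ : ℝ → ℝ} (hψ : Prof L ψ) {q : ℕ} (hq1 : 1 ≤ q)
    (hq : ∀ (j : ℤ) (g : ℕ), 1 ≤ g → 0 < ψ (q * (b ^ j * (b ^ g - 1))) ∧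
      0 < ψ (q * (b ^ j * (b⁻¹ ^ g - 1)))) :
    ∃ c u₀ : ℝ, 0 < c ∧ 0 < u₀ ∧ ∀ Lam η : ℝ, 0 ≤ Lam → 0 < η →
      ∃ (u s : ℝ) (w : ℂ) (D : ℕ) (ρ A : ℝ), Ad b ζ u s w ∧ 1 ≤ D ∧ u₀ ≤ u ∧ u ≤ b ^ D ∧
        |s| ≤ 1 ∧ ‖w‖ ≤ ρ ∧ 0 < ρ ∧ ρ ≤ η ∧ (b ^ D)⁻¹ ≤ η ∧
        (∀ m : ℤ, c ≤ ψ (b ^ m * u)) ∧ (D : ℝ) ^ 4 * ρ ^ 3 ≤ 1 ∧ (D : ℝ) * ρ ≤ 2 ∧
        Sq b u A ρ ∧ Lam * A ≤ -log ρ := by
  have hb0 : 0 < b := by linarith only [hb]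
  have hL0 : 0 < L := by linarith only [hψ.two_le]
  have hbinv : b⁻¹ < 1 := inv_lt_one_of_one_lt₀ hb
  obtain ⟨g₀, u, s, w, c, hadm, hu, hug, hs, hw, hc, hcu, hcs⟩ :=
    exists_start' hb hζ hT hψ hq1 hq
  -- thresholds
  obtain ⟨E, hE0, hE16, hEc⟩ : ∃ E : ℝ, 0 < E ∧ E ≤ 1 / 16 ∧ L * E ≤ c / 40 := by
    refine ⟨min (1 / 16) (c / (40 * L)), ?_, min_le_left _ _, ?_⟩
    · exact lt_min (by norm_num) (by positivity)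
    · calc L * min (1 / 16) (c / (40 * L)) ≤ L * (c / (40 * L)) :=
            mul_le_mul_of_nonneg_left (min_le_right _ _) hL0.le
        _ = c / 40 := by field_simp
  have hE4 : E ^ 4 ≤ 1 / 2 := by
    have := pow_le_pow_left₀ hE0.le hE16 4
    norm_num at this ⊢
    linarith only [this]
  obtain ⟨ρs, hρs0, hρs1, hρs3⟩ : ∃ ρs : ℝ, 0 < ρs ∧ ρs ≤ 1 / 10 ^ 20 ∧ L * ρs ≤ c / 40 := by
    refine ⟨min (1 / 10 ^ 20) (c / (40 * L)), ?_, min_le_left _ _, ?_⟩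
    · exact lt_min (by norm_num) (by positivity)
    · calc L * min (1 / 10 ^ 20) (c / (40 * L)) ≤ L * (c / (40 * L)) :=
            mul_le_mul_of_nonneg_left (min_le_right _ _) hL0.le
        _ = c / 40 := by field_simp
  obtain ⟨u₁, s₁, w₁, D₁, ρ₁, hS₁, hDE₁, hρ₁s, hDρ₁⟩ :=
    first_state' hb hζ hψ hadm hu hug hs hw hcu hcs hE0 hEc hE4 hρs0 hρs3
  obtain ⟨r, A, hr, hG⟩ := first_good' hb hζ hψ hu hE4 hρs1 hS₁ hDE₁ hρ₁s hDρ₁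
  refine ⟨c / 2, u, by positivity, hu, fun Lam η hLam hη => ?_⟩
  obtain ⟨n, hn1, hn2, hn3⟩ := exists_n' hb (A := A) (K := KS b) hr hη hLam
  obtain ⟨u', s', w', D', ρ', a', hS', -, hρ's, hI', hnD, hst', hr', hA'⟩ :=
    hG.iterate hb hζ hψ hu hρs1 hE4 n
  have hρ'0 := hS'.hρ
  have hDρ' : (D' : ℝ) * ρ' ≤ 2 :=
    D_mul_rho_le hρ'0 hI' (by norm_num) ((hρ's.trans hρs1).trans (by norm_num))
  refine ⟨u', s', w', D', ρ', a', hS'.adm, hS'.hD, hS'.hu₀, hS'.huD, hS'.hs, hS'.hw, hρ'0, ?_, ?_,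
    ?_, hI', hDρ', hst', ?_⟩
  · have h4 : log ρ' ≤ log η := by
      have := neg_abs_le (log η)
      linarith only [hn1, hr', this]
    exact (log_le_log_iff hρ'0 hη).1 h4
  · refine le_trans ?_ hn2
    rw [← inv_pow]
    exact pow_le_pow_of_le_one (by positivity) hbinv.le hnD
  · intro m
    refine le_trans ?_ (hS'.cu m)
    have : 0 ≤ 8 * L * ((b ^ D')⁻¹ + ρ') := by positivity
    linarith only [this]
  · have h5 : Lam * a' ≤ Lam * (2 ^ n * (A + KS b) - KS b) :=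
      mul_le_mul_of_nonneg_left hA' hLam
    linarith only [h5, hn3, hr']

end Vale.Agent.P105.Dig
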