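import Vale.Agent.P105.Dig.States

/-!
# Avoiding the zeros of a characteristic function
-/

open MeasureTheory Real Filter Topology Polynomial
open scoped ENNReal

namespace Vale.Agent.P105.Dig

theorem e1_nat_mul (n : ℕ) (x : ℝ) : e1 (n * x) = e1 x ^ n := by
  induction n with
  | zero => simp [e1_zero]
  | succ n ih =>
    rw [pow_succ, ← ih, ← e1_add]
    congr 1
    push_cast
    ring

theorem e1_inj : Set.InjOn e1 (Set.Ico 0 1) := by
  intro x hx y hy hxy
  have h1 : e1 (x - y) = 1 := by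
    have h2 : e1 (x - y) * e1 y = e1 y := by
      rw [← e1_add, sub_add_cancel, hxy]
    have h3 : e1 y ≠ 0 := by
      intro h0
      have := norm_e1 y
      rw [h0, norm_zero] at this
      norm_num at this
    exact mul_right_cancel₀ h3 (by rw [h2, one_mul])
  unfold e1 at h1
  rw [Complex.exp_eq_one_iff] at h1
  obtain ⟨n, hn⟩ := h1
  have h2 : ((2 * π * (x - y) : ℝ) : ℂ) = ((n * (2 * π) : ℝ) : ℂ) := by
    have hI : Complex.I ≠ 0 := Complex.I_ne_zero
    refine mul_right_cancel₀ hI ?_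
    rw [hn]
    push_cast
    ring
  have h3 : 2 * π * (x - y) = n * (2 * π) := Complex.ofReal_injective h2
  have h4 : x - y = n := by
    have hpi : (2 * π) ≠ 0 := by positivity
    refine mul_left_cancel₀ hpi ?_
    rw [h3]
    ring
  have h5 : (n : ℝ) < 1 := by linarith only [h4, hx.2, hy.1]
  have h6 : (-1 : ℝ) < n := by linarith only [h4, hx.1, hy.2]
  have h7 : n < 1 := by exact_mod_cast h5
  have h8 : -1 < n := by exact_mod_cast h6
  have h9 : n = 0 := by omega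
  rw [h9] at h4
  norm_num at h4
  linarith only [h4]

theorem ch_eq_sum {P : Measure ℤ} [IsProbabilityMeasure P] {N : ℕ}
    (hN : ∀ᵐ a : ℤ ∂P, |a| ≤ N) (x : ℝ) :
    ch P x = ∑ a ∈ Finset.Icc (-(N : ℤ)) N, (P.real {a} : ℂ) * e1 (x * a) := by
  have h1 : P.restrict (Finset.Icc (-(N : ℤ)) N : Set ℤ) = P := by
    refine Measure.restrict_eq_self_of_ae_mem ?_
    filter_upwards [hN] with a ha
    rw [Finset.mem_coe, Finset.mem_Icc]
    exact abs_le.1 ha
  unfold ch
  conv_lhs => rw [← h1]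
  rw [integral_finset]
  · refine Finset.sum_congr rfl fun a _ => ?_
    rw [Complex.real_smul]
  · exact (integrable_e1 x).integrableOn

theorem finite_zeros {P : Measure ℤ} [IsProbabilityMeasure P] {N : ℕ}
    (hN : ∀ᵐ a : ℤ ∂P, |a| ≤ N) : {x : ℝ | x ∈ Set.Ico 0 1 ∧ ch P x = 0}.Finite := by
  set p : ℂ[X] := ∑ a ∈ Finset.Icc (-(N : ℤ)) N, C (P.real {a} : ℂ) * X ^ (a + N).toNat with hp
  have hev : ∀ x : ℝ, p.eval (e1 x) = e1 (N * x) * ch P x := by
    intro x
    rw [hp, eval_finsetSum, ch_eq_sum hN, Finset.mul_sum]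
    refine Finset.sum_congr rfl fun a ha => ?_
    rw [Finset.mem_Icc] at ha
    rw [eval_mul, eval_C, eval_pow, eval_X, ← e1_nat_mul]
    have h1 : (((a + N).toNat : ℕ) : ℝ) = a + N := by
      have h2 : (((a + N).toNat : ℕ) : ℤ) = a + N := Int.toNat_of_nonneg (by omega)
      exact_mod_cast congrArg (fun t : ℤ => (t : ℝ)) h2
    rw [h1, show ((a : ℝ) + N) * x = N * x + x * a by ring, e1_add]
    ring
  have hp0 : p ≠ 0 := by
    intro h0
    have h1 := hev 0
    rw [h0, eval_zero, mul_zero, e1_zero, ch_zero] at h1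
    norm_num at h1
  refine Set.Finite.of_finite_image (f := e1) ?_ (e1_inj.mono fun x hx => hx.1)
  refine (p.roots.toFinset.finite_toSet).subset ?_
  rintro _ ⟨x, hx, rfl⟩
  rw [Finset.mem_coe, Multiset.mem_toFinset, mem_roots hp0, IsRoot.def, hev, hx.2, mul_zero]

theorem inv_mem_adjoin {b : ℝ} (hb : 1 < b) (hi' : IsIntegral ℤ b⁻¹) :
    b⁻¹ ∈ Algebra.adjoin ℤ {b} := by
  have hb0 : b ≠ 0 := by positivity
  have hbm : b ∈ Algebra.adjoin ℤ {b} := Algebra.self_mem_adjoin_singleton ℤ b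
  obtain ⟨f, hf, hev⟩ := hi'
  have hn : 1 ≤ f.natDegree := by
    by_contra hn
    have h1 : f.natDegree = 0 := by omega
    have h2 : f = 1 := hf.natDegree_eq_zero.1 h1
    rw [h2] at hev
    simp at hev
  obtain ⟨n, hn'⟩ : ∃ n, f.natDegree = n + 1 := ⟨f.natDegree - 1, by omega⟩
  have hev' : aeval b⁻¹ f = 0 := hev
  rw [aeval_eq_sum_range, hn', Finset.sum_range_succ] at hev'
  have hlead : f.coeff (n + 1) = 1 := by
    rw [← hn']
    exact hf
  rw [hlead, one_smul] at hev'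
  have h3 : b⁻¹ = -∑ i ∈ Finset.range (n + 1), f.coeff i • b ^ (n - i) := by
    have h4 : b ^ n * (∑ i ∈ Finset.range (n + 1), f.coeff i • b⁻¹ ^ i + b⁻¹ ^ (n + 1)) = 0 := by
      rw [hev', mul_zero]
    rw [mul_add, Finset.mul_sum] at h4
    have h5 : b ^ n * b⁻¹ ^ (n + 1) = b⁻¹ := by
      rw [pow_succ, ← mul_assoc, ← mul_pow, mul_inv_cancel₀ hb0, one_pow, one_mul]
    have h6 : ∑ i ∈ Finset.range (n + 1), b ^ n * f.coeff i • b⁻¹ ^ i =
        ∑ i ∈ Finset.range (n + 1), f.coeff i • b ^ (n - i) := by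
      refine Finset.sum_congr rfl fun i hi => ?_
      have hi' : i ≤ n := by
        have := Finset.mem_range.1 hi
        omega
      rw [mul_smul_comm]
      congr 1
      have : b ^ n = b ^ (n - i) * b ^ i := by rw [← pow_add]; congr 1; omega
      rw [this, mul_assoc, ← mul_pow, mul_inv_cancel₀ hb0, one_pow, mul_one]
    rw [h5, h6] at h4
    linarith only [h4]
  rw [h3]
  refine neg_mem (sum_mem fun i _ => ?_)
  exact (Algebra.adjoin ℤ {b}).zsmul_mem (pow_mem hbm _) _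

theorem zpow_mem_adjoin {b : ℝ} (hb : 1 < b) (hi' : IsIntegral ℤ b⁻¹) (j : ℤ) :
    b ^ j ∈ Algebra.adjoin ℤ {b} := by
  obtain ⟨n, rfl | rfl⟩ := j.eq_nat_or_neg
  · rw [zpow_natCast]
    exact pow_mem (Algebra.self_mem_adjoin_singleton ℤ b) _
  · rw [zpow_neg, zpow_natCast, ← inv_pow]
    exact pow_mem (inv_mem_adjoin hb hi') _

theorem exists_rep {b : ℝ} (hi : IsIntegral ℤ b) {x : ℝ} (hx : x ∈ Algebra.adjoin ℤ {b}) :
    ∃ R : ℤ[X], aeval b R = x ∧ R.degree < (minpoly ℤ b).degree := by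
  rw [Algebra.adjoin_singleton_eq_range_aeval] at hx
  obtain ⟨R, hR⟩ := hx
  refine ⟨R %ₘ minpoly ℤ b, ?_, degree_modByMonic_lt _ (minpoly.monic hi)⟩
  rw [minpoly.aeval_modByMonic_minpoly]
  exact hR

/-- A non-integral number is avoided by large multiples, modulo one. -/
theorem exists_Q {b : ℝ} (hi : IsIntegral ℤ b) {z : ℝ} (hz : ∀ k : ℤ, z ≠ k) :
    ∃ Q : ℕ, ∀ q : ℕ, Q ≤ q → ∀ x ∈ Algebra.adjoin ℤ {b}, ∀ k : ℤ, (q : ℝ) * x ≠ z + k := by
  by_cases hzM : z ∈ Algebra.adjoin ℤ {b}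
  · obtain ⟨R, hR, hRd⟩ := exists_rep hi hzM
    refine ⟨1 + ∑ i ∈ R.support, (R.coeff i).natAbs, fun q hq x hx k hk => ?_⟩
    obtain ⟨T, hT, hTd⟩ := exists_rep hi hx
    -- the polynomial `q T - R - k` vanishes
    set W : ℤ[X] := C (q : ℤ) * T - R - C k with hW
    have hW0 : aeval b W = 0 := by
      rw [hW, map_sub, map_sub, map_mul, aeval_C, aeval_C, hT, hR]
      simp only [algebraMap_int_eq, eq_intCast, Int.cast_natCast]
      linarith only [hk]
    have hpos : 0 < (minpoly ℤ b).degree := minpoly.degree_pos hi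
    have hWd : W.degree < (minpoly ℤ b).degree := by
      refine (degree_sub_le _ _).trans_lt (max_lt ((degree_sub_le _ _).trans_lt (max_lt ?_ hRd)) ?_)
      · rw [← smul_eq_C_mul]
        exact (degree_smul_le _ _).trans_lt hTd
      · exact degree_C_le.trans_lt hpos
    have hWz : W = 0 := by
      by_contra hne
      exact absurd (minpoly.IsIntegrallyClosed.degree_le_of_ne_zero hne hW0) (not_le.2 hWd)
    have hco : ∀ i, 1 ≤ i → R.coeff i = 0 := by
      intro i hi1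
      have h1 : (q : ℤ) * T.coeff i - R.coeff i = 0 := by
        have h2 : W.coeff i = 0 := by rw [hWz, coeff_zero]
        rw [hW, coeff_sub, coeff_sub, coeff_C_mul, coeff_C, if_neg (by omega), sub_zero] at h2
        exact h2
      by_contra hne
      have h3 : (R.coeff i).natAbs < q := by
        have h4 : (R.coeff i).natAbs ≤ ∑ i ∈ R.support, (R.coeff i).natAbs :=
          Finset.single_le_sum (f := fun i => (R.coeff i).natAbs) (fun _ _ => Nat.zero_le _)
            (mem_support_iff.2 hne)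
        omega
      have h5 : (q : ℤ) ∣ R.coeff i := ⟨T.coeff i, by linarith only [h1]⟩
      have h6 : q ∣ (R.coeff i).natAbs := Int.natCast_dvd.1 h5
      have h7 : 0 < (R.coeff i).natAbs := Int.natAbs_pos.2 hne
      exact absurd (Nat.le_of_dvd h7 h6) (not_le.2 h3)
    have hRC : R = C (R.coeff 0) := by
      ext i
      rcases Nat.eq_zero_or_pos i with rfl | hi1
      · simp
      · rw [hco i hi1, coeff_C, if_neg (by omega)]
    refine hz (R.coeff 0) ?_
    rw [← hR, hRC, aeval_C]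
    simp
  · refine ⟨0, fun q _ x hx k hk => hzM ?_⟩
    have h1 : z = (q : ℤ) • x - (k : ℤ) • 1 := by
      simp only [zsmul_eq_mul, Int.cast_natCast, mul_one]
      linarith only [hk]
    rw [h1]
    exact sub_mem ((Algebra.adjoin ℤ {b}).zsmul_mem hx _)
      ((Algebra.adjoin ℤ {b}).zsmul_mem (one_mem _) _)

theorem exists_Q_finite {b : ℝ} (hi : IsIntegral ℤ b) {Z : Set ℝ} (hZ : Z.Finite)
    (hz : ∀ z ∈ Z, ∀ k : ℤ, z ≠ k) :
    ∃ Q : ℕ, ∀ q : ℕ, Q ≤ q → ∀ z ∈ Z, ∀ x ∈ Algebra.adjoin ℤ {b}, ∀ k : ℤ,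
      (q : ℝ) * x ≠ z + k := by
  choose! Q hQ using fun z (h : z ∈ Z) => exists_Q hi (hz z h)
  refine ⟨∑ z ∈ hZ.toFinset, Q z, fun q hq z hzZ => hQ z hzZ q (le_trans ?_ hq)⟩
  exact Finset.single_le_sum (f := Q) (fun _ _ => Nat.zero_le _) (hZ.mem_toFinset.2 hzZ)

/-- No zeros in a large multiple of `ℤ[b]`. -/
theorem exists_q_ch {b : ℝ} (hi : IsIntegral ℤ b) {P : Measure ℤ} [IsProbabilityMeasure P] {N : ℕ}
    (hN : ∀ᵐ a : ℤ ∂P, |a| ≤ N) :
    ∃ Q : ℕ, ∀ q : ℕ, Q ≤ q → ∀ x ∈ Algebra.adjoin ℤ {b}, ch P (q * x) ≠ 0 := by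
  obtain ⟨Q, hQ⟩ := exists_Q_finite hi (finite_zeros hN) (fun z hz k hzk => by
    have h1 := hz.2
    rw [hzk, show (k : ℝ) = 0 + k by ring, ch_add_int, ch_zero] at h1
    exact one_ne_zero h1)
  refine ⟨Q, fun q hq x hx h0 => ?_⟩
  refine hQ q hq (Int.fract (q * x)) ⟨⟨Int.fract_nonneg _, Int.fract_lt_one _⟩, ?_⟩ x hx
    ⌊(q : ℝ) * x⌋ (Int.fract_add_floor _).symm
  have h1 : ch P (Int.fract (q * x) + ⌊(q : ℝ) * x⌋) = ch P (Int.fract (q * x)) :=
    ch_add_int _ _
  rw [← h1, Int.fract_add_floor]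
  exact h0

end Vale.Agent.P105.Dig
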